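import Mathlib

/-! The polynomial `gam p x y = (1/p) ((x + y)^p - x^p - y^p)`. -/

namespace Vale.Agent.P257.E

open Finset

variable {K : Type*} [CommRing K]

/-- `(1/p) ((x + y)^p - x^p - y^p)`. -/
noncomputable def gam (p : ℕ) (x y : K) : K :=
  ∑ i ∈ Ioo 0 p, ((p.choose i / p : ℕ) : K) * x ^ i * y ^ (p - i)

theorem p_mul_gam {p : ℕ} (hp : p.Prime) (x y : K) :
    (p : K) * gam p x y = (x + y) ^ p - x ^ p - y ^ p := by
  have h1 : range (p + 1) = insert p (insert 0 (Ioo 0 p)) := by
    ext i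
    simp only [mem_range, mem_insert, mem_Ioo]
    have := hp.pos
    omega
  rw [add_pow, h1, sum_insert (by simp [hp.ne_zero]), sum_insert (by simp), gam, mul_sum]
  simp only [Nat.sub_self, pow_zero, mul_one, Nat.choose_self, Nat.cast_one, tsub_zero, one_mul,
    Nat.choose_zero_right]
  have h2 : ∀ i ∈ Ioo 0 p, (p : K) * (((p.choose i / p : ℕ) : K) * x ^ i * y ^ (p - i)) =
      x ^ i * y ^ (p - i) * (p.choose i : ℕ) := by
    intro i hi
    rw [mem_Ioo] at hi
    have h3 : p.choose i = p * (p.choose i / p) :=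
      (Nat.mul_div_cancel' (hp.dvd_choose_self (by omega) hi.2)).symm
    conv_rhs => rw [h3]
    push_cast
    ring
  rw [sum_congr rfl h2]
  ring

theorem gam_zero_left {p : ℕ} (y : K) : gam p 0 y = 0 := by
  refine sum_eq_zero fun i hi => ?_
  rw [mem_Ioo] at hi
  rw [zero_pow (by omega), mul_zero, zero_mul]

theorem gam_zero_right {p : ℕ} (x : K) : gam p x 0 = 0 := by
  refine sum_eq_zero fun i hi => ?_
  rw [mem_Ioo] at hi
  rw [zero_pow (by omega), mul_zero]

theorem gam_comm {p : ℕ} (x y : K) : gam p x y = gam p y x := by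
  unfold gam
  refine sum_nbij' (fun i => p - i) (fun i => p - i) ?_ ?_ ?_ ?_ ?_
  · intro i hi; simp only [mem_Ioo] at *; omega
  · intro i hi; simp only [mem_Ioo] at *; omega
  · intro i hi; simp only [mem_Ioo] at *; omega
  · intro i hi; simp only [mem_Ioo] at *; omega
  · intro i hi
    simp only [mem_Ioo] at hi
    rw [Nat.choose_symm hi.2.le, show p - (p - i) = i by omega]
    ring

theorem map_gam {L : Type*} [CommRing L] {p : ℕ} (f : K →+* L) (x y : K) :
    f (gam p x y) = gam p (f x) (f y) := by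
  simp [gam, map_sum]

theorem mul_gam {p : ℕ} (c x y : K) : gam p (c * x) (c * y) = c ^ p * gam p x y := by
  unfold gam
  rw [mul_sum]
  refine sum_congr rfl fun i hi => ?_
  rw [mem_Ioo] at hi
  have : c ^ p = c ^ i * c ^ (p - i) := by rw [← pow_add]; congr 1; omega
  rw [mul_pow, mul_pow, this]
  ring

/-- The cocycle identity. -/
theorem gam_assoc {p : ℕ} (hp : p.Prime) (x y z : K) :
    gam p x y + gam p (x + y) z = gam p y z + gam p x (y + z) := by
  let R := MvPolynomial (Fin 3) ℤ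
  have hp0 : (p : R) ≠ 0 := by exact_mod_cast hp.ne_zero
  have h : gam p (MvPolynomial.X 0 : R) (MvPolynomial.X 1) +
      gam p (MvPolynomial.X 0 + MvPolynomial.X 1) (MvPolynomial.X 2) =
      gam p (MvPolynomial.X 1) (MvPolynomial.X 2) +
      gam p (MvPolynomial.X 0) (MvPolynomial.X 1 + MvPolynomial.X 2) := by
    apply mul_left_cancel₀ hp0
    rw [mul_add, mul_add, p_mul_gam hp, p_mul_gam hp, p_mul_gam hp, p_mul_gam hp]
    ring
  let f : R →+* K := MvPolynomial.eval₂Hom (Int.castRingHom K) ![x, y, z]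
  have fx : f (MvPolynomial.X 0) = x := (MvPolynomial.eval₂Hom_X' _ _ _).trans rfl
  have fy : f (MvPolynomial.X 1) = y := (MvPolynomial.eval₂Hom_X' _ _ _).trans rfl
  have fz : f (MvPolynomial.X 2) = z := (MvPolynomial.eval₂Hom_X' _ _ _).trans rfl
  have := congrArg f h
  simpa only [map_add, map_gam, fx, fy, fz] using this

/-- The coefficient of `ε ^ p` of `gam (x + x₁ ε, y + y₁ ε)`. -/
theorem gam_top {p : ℕ} (x y x₁ y₁ : K) :
    (gam p (Polynomial.C x + Polynomial.C x₁ * Polynomial.X)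
      (Polynomial.C y + Polynomial.C y₁ * Polynomial.X)).coeff p = gam p x₁ y₁ := by
  unfold gam
  rw [Polynomial.finsetSum_coeff]
  refine sum_congr rfl fun i hi => ?_
  rw [mem_Ioo] at hi
  have h2 : ∀ (a b : K), (Polynomial.C a + Polynomial.C b * Polynomial.X).natDegree ≤ 1 := by
    intro a b
    rw [add_comm]
    exact Polynomial.natDegree_linear_le
  have h1 : ∀ (a b : K) (n : ℕ),
      ((Polynomial.C a + Polynomial.C b * Polynomial.X) ^ n).coeff n = b ^ n := by
    intro a b n
    have := Polynomial.coeff_pow_of_natDegree_le (p := Polynomial.C a + Polynomial.C b * Polynomial.X)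
      (n := 1) (m := n) (h2 a b)
    rw [Nat.mul_one] at this
    rw [this]
    simp
  have h3 : ((p.choose i / p : ℕ) : Polynomial K) = Polynomial.C ((p.choose i / p : ℕ) : K) := by
    simp
  rw [h3, mul_assoc, Polynomial.coeff_C_mul, mul_assoc]
  congr 1
  have h4 := Polynomial.coeff_mul_add_eq_of_natDegree_le
    (Polynomial.natDegree_pow_le_of_le i (h2 x x₁))
    (Polynomial.natDegree_pow_le_of_le (p - i) (h2 y y₁))
  rw [Nat.mul_one, Nat.mul_one, show i + (p - i) = p by omega] at h4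
  rw [h4, h1, h1]

theorem choose_div {p i : ℕ} (hp : p.Prime) (hi : i ∈ Ioo 0 p) :
    p.choose i / p * i = (p - 1).choose (i - 1) := by
  rw [mem_Ioo] at hi
  have h1 := Nat.add_one_mul_choose_eq (p - 1) (i - 1)
  rw [Nat.sub_add_cancel hp.pos, Nat.sub_add_cancel hi.1] at h1
  have h3 : p.choose i = p * (p.choose i / p) :=
    (Nat.mul_div_cancel' (hp.dvd_choose_self (by omega) hi.2)).symm
  rw [h3, mul_assoc] at h1
  exact (Nat.eq_of_mul_eq_mul_left hp.pos h1).symm

/-- The partial derivative of `gam`. -/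
theorem sum_choose {p : ℕ} (hp : p.Prime) (x y : K) :
    ∑ i ∈ Ioo 0 p, ((p.choose i / p : ℕ) : K) * (i * x ^ (i - 1)) * y ^ (p - i) =
      (x + y) ^ (p - 1) - x ^ (p - 1) := by
  have h1 : ∑ i ∈ Ioo 0 p, ((p.choose i / p : ℕ) : K) * (i * x ^ (i - 1)) * y ^ (p - i) =
      ∑ i ∈ Ioo 0 p, x ^ (i - 1) * y ^ (p - 1 - (i - 1)) * ((p - 1).choose (i - 1) : ℕ) := by
    refine sum_congr rfl fun i hi => ?_
    rw [← choose_div hp hi]
    rw [mem_Ioo] at hi
    rw [show p - 1 - (i - 1) = p - i by omega]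
    push_cast
    ring
  have h2 : ∑ i ∈ Ioo 0 p, x ^ (i - 1) * y ^ (p - 1 - (i - 1)) * ((p - 1).choose (i - 1) : ℕ) =
      ∑ i ∈ range (p - 1), x ^ i * y ^ (p - 1 - i) * ((p - 1).choose i : ℕ) := by
    refine sum_nbij' (fun i => i - 1) (fun i => i + 1) ?_ ?_ ?_ ?_ ?_
    · intro i hi; simp only [mem_Ioo, mem_range] at *; omega
    · intro i hi; simp only [mem_Ioo, mem_range] at *; omega
    · intro i hi; simp only [mem_Ioo, mem_range] at *; omega
    · intro i hi; simp only [mem_Ioo, mem_range] at *; omega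
    · intro i hi; rfl
  rw [h1, h2, add_pow, sum_range_succ]
  simp

/-- The derivative of `gam`. -/
theorem derivation_gam {R : Type*} [CommRing R] [Algebra R K] {p : ℕ} (hp : p.Prime)
    (D : Derivation R K K) (x y : K) : D (gam p x y) =
      (x + y) ^ (p - 1) * (D x + D y) - x ^ (p - 1) * D x - y ^ (p - 1) * D y := by
  have h1 : D (gam p x y) =
      (∑ i ∈ Ioo 0 p, ((p.choose i / p : ℕ) : K) * (i * x ^ (i - 1)) * y ^ (p - i)) * D x +
      (∑ i ∈ Ioo 0 p, ((p.choose i / p : ℕ) : K) * ((p - i : ℕ) * y ^ (p - i - 1)) * x ^ i) *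
        D y := by
    unfold gam
    rw [map_sum, sum_mul, sum_mul, ← sum_add_distrib]
    refine sum_congr rfl fun i hi => ?_
    rw [Derivation.leibniz, Derivation.leibniz, Derivation.map_natCast, Derivation.leibniz_pow,
      Derivation.leibniz_pow]
    simp only [smul_eq_mul, nsmul_eq_mul]
    ring
  have h2 : ∑ i ∈ Ioo 0 p, ((p.choose i / p : ℕ) : K) * ((p - i : ℕ) * y ^ (p - i - 1)) * x ^ i =
      ∑ i ∈ Ioo 0 p, ((p.choose i / p : ℕ) : K) * (i * y ^ (i - 1)) * x ^ (p - i) := by
    refine sum_nbij' (fun i => p - i) (fun i => p - i) ?_ ?_ ?_ ?_ ?_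
    · intro i hi; simp only [mem_Ioo] at *; omega
    · intro i hi; simp only [mem_Ioo] at *; omega
    · intro i hi; simp only [mem_Ioo] at *; omega
    · intro i hi; simp only [mem_Ioo] at *; omega
    · intro i hi
      simp only [mem_Ioo] at hi
      rw [Nat.choose_symm hi.2.le, show p - (p - i) = i by omega]
  rw [h1, h2, sum_choose hp, sum_choose hp]
  ring

end Vale.Agent.P257.E
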