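import Vale.Agent.P257.X.Abs

/-! The collapse lemma: if all the classes of a complex are represented by cocycles in the kernel of
a derivation, the cohomology of the kernel is free. -/

namespace Vale.Agent.P257.E

open Vale.Agent.P257.X Vale.Agent.P257.X.Cpx

variable {A : Type*} [AddCommGroup A] {C : Cpx A}

/-- Explicit operators on a complex with derivation. -/
structure Col {p : ℕ} {e : ℤ} {D : A →+ A} (h : Der C p e D) (T G U : A → A)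
    (hop bop : A →+ A) : Prop where
  T_mem : ∀ s N x, (C.Ker h).Z s N x → T x ∈ C.K s (N + e)
  T_D : ∀ s N x, (C.Ker h).Z s N x → D (T x) = x
  T_d : ∀ s N x, (C.Ker h).Z s N x → C.d s (T x) = hop x
  hop_Z : ∀ s N x, (C.Ker h).Z s N x → (C.Ker h).Z (s + 1) (N + e) (hop x)
  G_mem : ∀ s N x, (C.Ker h).Z s N x → G x ∈ C.K s (N + (p - 1 : ℤ) * e)
  G_D : ∀ s N x, (C.Ker h).Z s N x → D^[p - 1] (G x) = x
  U_mem : ∀ s N x, (C.Ker h).Z s N x → U x ∈ C.K (s + 1) (N + p * e)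
  U_D : ∀ s N x, (C.Ker h).Z s N x → D (U x) = C.d s (G x)
  U_d : ∀ s N x, (C.Ker h).Z s N x → C.d (s + 1) (U x) = - bop x
  bop_Z : ∀ s N x, (C.Ker h).Z s N x → (C.Ker h).Z (s + 2) (N + p * e) (bop x)

/-- All the classes of `C` are represented by elements of `P`, cocycles in the kernel of `D`. -/
def Rep {p : ℕ} {e : ℤ} {D : A →+ A} (h : Der C p e D) (P : ℕ → ℤ → A → Prop) (M : ℤ) : Prop :=
  ∀ s N z, N < M → C.Z s N z → ∃ x, P s N x ∧ (C.Ker h).Z s N x ∧ C.B s N (z - x)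

variable {p : ℕ} {e : ℤ} {D : A →+ A} {h : Der C p e D} {T G U : A → A}
  {hop bop : A →+ A}

theorem D_iter_zero (D : A →+ A) (hp : 2 ≤ p) {x : A} (hx : D x = 0) : D^[p - 1] x = 0 := by
  obtain ⟨q, rfl⟩ : ∃ q, p = q + 2 := ⟨p - 2, by omega⟩
  rw [show q + 2 - 1 = q + 1 by omega, Function.iterate_succ_apply, hx]
  have : ∀ k, D^[k] (0 : A) = 0 := fun k => by
    induction k with
    | zero => rfl
    | succ k ih => rw [Function.iterate_succ_apply', ih, map_zero]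
  exact this q

theorem Z_ker {s N} {x : A} (hx : (C.Ker h).Z s N x) : C.Z s N x ∧ D x = 0 :=
  ⟨⟨hx.1.1, hx.2⟩, hx.1.2⟩

theorem Z_ker' {s N} {x : A} (hx : C.Z s N x) (hD : D x = 0) : (C.Ker h).Z s N x :=
  ⟨⟨hx.1, hD⟩, hx.2⟩

/-- Spanning, `s = 0`. -/
theorem Col.span_zero {P : ℕ → ℤ → A → Prop} {M : ℤ} (hP : Rep h P M) {N} (hN : N < M) {z : A}
    (hz : (C.Ker h).Z 0 N z) : ∃ x, P 0 N x ∧ (C.Ker h).Z 0 N x ∧ (C.Ker h).B 0 N (z - x) := by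
  obtain ⟨x, h1, h2, h3⟩ := hP 0 N z hN (Z_ker hz).1
  exact ⟨x, h1, h2, h3⟩

/-- Spanning, `s = 1`. -/
theorem Col.span_one (H : Col h T G U hop bop) {P : ℕ → ℤ → A → Prop} {M : ℤ} (he : 0 ≤ e)
    (hP : Rep h P M) {N} (hN : N < M) {z : A} (hz : (C.Ker h).Z 1 N z) :
    ∃ x₀ x₁, P 1 N x₀ ∧ (C.Ker h).Z 1 N x₀ ∧ P 0 (N - e) x₁ ∧ (C.Ker h).Z 0 (N - e) x₁ ∧
      (C.Ker h).B 1 N (z - x₀ - hop x₁) := by
  obtain ⟨x₀, h1, h2, Y, hY, hY'⟩ := hP 1 N z hN (Z_ker hz).1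
  have hDY : C.Z 0 (N - e) (D Y) := by
    refine ⟨h.mem _ _ _ hY, ?_⟩
    rw [← h.comm _ _ _ hY, hY', map_sub, (Z_ker hz).2, (Z_ker h2).2, sub_zero]
  obtain ⟨x₁, h3, h4, h5⟩ := hP 0 (N - e) _ (by linarith) hDY
  have h6 : D Y = x₁ := sub_eq_zero.1 h5
  have hT := H.T_mem _ _ _ h4
  rw [sub_add_cancel] at hT
  refine ⟨x₀, x₁, h1, h2, h3, h4, Y - T x₁, (mem_ker h).2 ⟨sub_mem hY hT, ?_⟩, ?_⟩
  · rw [map_sub, H.T_D _ _ _ h4, h6, sub_self]
  · change C.d 0 _ = _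
    rw [map_sub, H.T_d _ _ _ h4, hY']

/-- Spanning. -/
theorem Col.span (H : Col h T G U hop bop) {P : ℕ → ℤ → A → Prop} {M : ℤ} (he : 0 ≤ e)
    (hp : 1 ≤ p) (hP : Rep h P M) {s : ℕ} {N} (hN : N < M) {z : A} (hz : (C.Ker h).Z (s + 2) N z) :
    ∃ x₀ x₁ R, P (s + 2) N x₀ ∧ (C.Ker h).Z (s + 2) N x₀ ∧ P (s + 1) (N - e) x₁ ∧
      (C.Ker h).Z (s + 1) (N - e) x₁ ∧ (C.Ker h).Z s (N - p * e) R ∧
      (C.Ker h).B (s + 2) N (z - x₀ - hop x₁ - bop R) := by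
  obtain ⟨x₀, h1, h2, Y, hY, hY'⟩ := hP (s + 2) N z hN (Z_ker hz).1
  have hDY : C.Z (s + 1) (N - e) (D Y) := by
    refine ⟨h.mem _ _ _ hY, ?_⟩
    rw [← h.comm _ _ _ hY, hY', map_sub, (Z_ker hz).2, (Z_ker h2).2, sub_zero]
  obtain ⟨x₁, h3, h4, X, hX, hX'⟩ := hP (s + 1) (N - e) _ (by linarith) hDY
  have hT := H.T_mem _ _ _ h4
  rw [sub_add_cancel] at hT
  have hm := h.iter_mem (p - 1) hX
  have hpe : ((p - 1 : ℕ) : ℤ) = (p - 1 : ℤ) := by push_cast [Nat.cast_sub hp]; ring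
  rw [hpe, show N - e - (p - 1 : ℤ) * e = N - p * e by ring] at hm
  -- `w = D ^ (p - 1) X`
  have hw : (C.Ker h).Z s (N - p * e) (D^[p - 1] X) := by
    refine ⟨⟨hm, ?_⟩, ?_⟩
    · change D (D^[p - 1] X) = 0
      rw [iter_pred D hp]
      exact h.pow _ _ _ hX
    · change C.d s _ = 0
      rw [← h.iter_comm _ hX, hX', ← H.T_D _ _ _ h4, ← map_sub, iter_pred' D hp]
      exact h.pow _ _ _ (sub_mem hY hT)
  set w := D^[p - 1] X with hwdef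
  have hG := H.G_mem _ _ _ hw
  rw [show N - p * e + (p - 1 : ℤ) * e = N - e by ring] at hG
  obtain ⟨V, hV, hV'⟩ := h.ex1 s (N - e) (X - G w) (sub_mem hX hG) (by
    rw [iter_sub, H.G_D _ _ _ hw, sub_self])
  rw [sub_add_cancel] at hV
  have hU := H.U_mem _ _ _ hw
  rw [sub_add_cancel] at hU
  refine ⟨x₀, x₁, -w, h1, h2, h3, h4, Z.neg hw, ?_⟩
  have hb : (C.Ker h).B (s + 2) N (z - x₀ - hop x₁ + bop w) := by
    refine ⟨Y - T x₁ - U w - C.d s V, (mem_ker h).2 ⟨sub_mem (sub_mem (sub_mem hY hT) hU)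
      (C.d_mem _ _ _ hV), ?_⟩, ?_⟩
    · rw [map_sub, map_sub, map_sub, H.T_D _ _ _ h4, H.U_D _ _ _ hw, h.comm _ _ _ hV, hV', map_sub,
        hX']
      abel
    · change C.d (s + 1) _ = _
      rw [map_sub, map_sub, map_sub, H.T_d _ _ _ h4, H.U_d _ _ _ hw, C.d_d _ _ _ hV, hY']
      abel
  rwa [map_neg, sub_neg_eq_add]

/-- Separation: `S₀ + hop S₁ + bop R` is a coboundary, then so is `S₀`, in `C`. -/
theorem Col.sep₀ (H : Col h T G U hop bop) {s : ℕ} {N} {S₀ S₁ R : A}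
    (h1 : (C.Ker h).Z (s + 1) (N - e) S₁)
    (hR : (C.Ker h).Z s (N - p * e) R)
    (hb : (C.Ker h).B (s + 2) N (S₀ + hop S₁ + bop R)) : C.B (s + 2) N S₀ := by
  obtain ⟨y, hy, hy'⟩ := hb
  change C.d (s + 1) y = _ at hy'
  have hT := H.T_mem _ _ _ h1
  rw [sub_add_cancel] at hT
  have hU := H.U_mem _ _ _ hR
  rw [sub_add_cancel] at hU
  refine ⟨y - T S₁ + U R, add_mem (sub_mem hy.1 hT) hU, ?_⟩
  rw [map_add, map_sub, hy', H.T_d _ _ _ h1, H.U_d _ _ _ hR]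
  abel

/-- Separation, low degree. -/
theorem Col.sep₀' (H : Col h T G U hop bop) {N} {S₀ S₁ : A}
    (h1 : (C.Ker h).Z 0 (N - e) S₁)
    (hb : (C.Ker h).B 1 N (S₀ + hop S₁)) : C.B 1 N S₀ := by
  obtain ⟨y, hy, hy'⟩ := hb
  change C.d 0 y = _ at hy'
  have hT := H.T_mem _ _ _ h1
  rw [sub_add_cancel] at hT
  refine ⟨y - T S₁, sub_mem hy.1 hT, ?_⟩
  rw [map_sub, hy', H.T_d _ _ _ h1]
  abel

/-- Separation: `hop S₁ + bop R` is a coboundary, then so is `S₁`, in `C`. -/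
theorem Col.sep₁ (H : Col h T G U hop bop) {P : ℕ → ℤ → A → Prop} {M : ℤ}
    (hP : Rep h P M) {s : ℕ} {N} (hN : N < M) {S₁ R : A}
    (h1 : (C.Ker h).Z (s + 1) (N - e) S₁)
    (hR : (C.Ker h).Z s (N - p * e) R)
    (hb : (C.Ker h).B (s + 2) N (hop S₁ + bop R)) : C.B (s + 1) (N - e) S₁ := by
  obtain ⟨y, hy, hy'⟩ := hb
  change C.d (s + 1) y = _ at hy'
  have hyD : D y = 0 := hy.2
  have hT := H.T_mem _ _ _ h1
  rw [sub_add_cancel] at hT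
  have hU := H.U_mem _ _ _ hR
  rw [sub_add_cancel] at hU
  have hG := H.G_mem _ _ _ hR
  rw [show N - p * e + (p - 1 : ℤ) * e = N - e by ring] at hG
  have hz : C.Z (s + 1) N (y - T S₁ + U R) := by
    refine ⟨add_mem (sub_mem hy.1 hT) hU, ?_⟩
    rw [map_add, map_sub, hy', H.T_d _ _ _ h1, H.U_d _ _ _ hR]
    abel
  obtain ⟨x, -, hx, X, hX, hX'⟩ := hP _ _ _ hN hz
  refine ⟨G R - D X, sub_mem hG (h.mem _ _ _ hX), ?_⟩
  have h2 := congrArg D hX'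
  rw [h.comm _ _ _ hX, map_sub, (Z_ker hx).2, map_add, map_sub, hyD, H.T_D _ _ _ h1,
    H.U_D _ _ _ hR] at h2
  rw [map_sub, h2]
  abel

/-- Separation, low degree. -/
theorem Col.sep₁' (H : Col h T G U hop bop) {P : ℕ → ℤ → A → Prop} {M : ℤ}
    (hP : Rep h P M) {N} (hN : N < M) {S₁ : A}
    (h1 : (C.Ker h).Z 0 (N - e) S₁)
    (hb : (C.Ker h).B 1 N (hop S₁)) : C.B 0 (N - e) S₁ := by
  obtain ⟨y, hy, hy'⟩ := hb
  change C.d 0 y = _ at hy'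
  have hyD : D y = 0 := hy.2
  have hT := H.T_mem _ _ _ h1
  rw [sub_add_cancel] at hT
  have hz : C.Z 0 N (y - T S₁) := by
    refine ⟨sub_mem hy.1 hT, ?_⟩
    rw [map_sub, hy', H.T_d _ _ _ h1, sub_self]
  obtain ⟨x, -, hx, hX⟩ := hP _ _ _ hN hz
  have h2 := congrArg D (sub_eq_zero.1 hX)
  rw [(Z_ker hx).2, map_sub, hyD, H.T_D _ _ _ h1, zero_sub, neg_eq_zero] at h2
  exact h2

/-- Strip `hop`. -/
theorem Col.strip_hop (H : Col h T G U hop bop) {P : ℕ → ℤ → A → Prop} {M : ℤ}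
    (hP : Rep h P M) {s : ℕ} {N} (hN : N < M) {S : A}
    (h1 : (C.Ker h).Z s (N - e) S)
    (hb : (C.Ker h).B (s + 1) N (hop S)) : C.B s (N - e) S := by
  cases s with
  | zero => exact H.sep₁' hP hN h1 hb
  | succ s =>
    refine H.sep₁ hP hN (R := 0) h1 (Z.zero _ _) ?_
    rwa [map_zero, add_zero]

/-- Strip `bop`. -/
theorem Col.strip_bop (H : Col h T G U hop bop) {P : ℕ → ℤ → A → Prop} {M : ℤ} (he : 0 ≤ e)
    (hp : 2 ≤ p) (hP : Rep h P M) {s : ℕ} {N} (hN : N < M) {R : A}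
    (hR : (C.Ker h).Z s (N - p * e) R)
    (hb : (C.Ker h).B (s + 2) N (bop R)) : (C.Ker h).B s (N - p * e) R := by
  obtain ⟨y, hy, hy'⟩ := hb
  change C.d (s + 1) y = _ at hy'
  have hyD : D y = 0 := hy.2
  have hU := H.U_mem _ _ _ hR
  rw [sub_add_cancel] at hU
  have hG := H.G_mem _ _ _ hR
  rw [show N - p * e + (p - 1 : ℤ) * e = N - e by ring] at hG
  have hz : C.Z (s + 1) N (y + U R) := by
    refine ⟨add_mem hy.1 hU, ?_⟩
    rw [map_add, hy', H.U_d _ _ _ hR]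
    abel
  obtain ⟨x, -, hx, X, hX, hX'⟩ := hP _ _ _ hN hz
  have h2 := congrArg D hX'
  rw [h.comm _ _ _ hX, map_sub, (Z_ker hx).2, map_add, hyD, H.U_D _ _ _ hR, zero_add,
    sub_zero] at h2
  have hDX := h.mem _ _ _ hX
  have hz2 : C.Z s (N - e) (G R - D X) := ⟨sub_mem hG hDX, by rw [map_sub, h2, sub_self]⟩
  obtain ⟨x', -, hx', hb'⟩ := hP _ _ _ (by linarith) hz2
  have hpe : ((p - 1 : ℕ) : ℤ) = (p - 1 : ℤ) := by push_cast [Nat.cast_sub (by omega : 1 ≤ p)]; ring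
  have hR2 : D^[p - 1] (G R - D X - x') = R := by
    rw [iter_sub, iter_sub, H.G_D _ _ _ hR, iter_pred' D (by omega), h.pow _ _ _ hX, sub_zero,
      D_iter_zero D hp (Z_ker hx').2, sub_zero]
  cases s with
  | zero =>
    have : G R - D X - x' = 0 := hb'
    rw [← hR2, this]
    have : ∀ k, D^[k] (0 : A) = 0 := fun k => by
      induction k with
      | zero => rfl
      | succ k ih => rw [Function.iterate_succ_apply', ih, map_zero]
    exact this _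
  | succ s =>
    obtain ⟨X', hX1, hX2⟩ := hb'
    have hm := h.iter_mem (p - 1) hX1
    rw [hpe, show N - e - (p - 1 : ℤ) * e = N - p * e by ring] at hm
    refine ⟨D^[p - 1] X', (mem_ker h).2 ⟨hm, ?_⟩, ?_⟩
    · rw [iter_pred D (by omega)]
      exact h.pow _ _ _ hX1
    · change C.d s _ = _
      rw [← h.iter_comm _ hX1, hX2, hR2]

end Vale.Agent.P257.E
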