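import Vale.Agent.P257.SG.Model
import Vale.Agent.P257.E.Gam
import Vale.Agent.P257.E.Collapse

/-! Cup products, the explicit cocycles `H_n`, `B_n` and the collapse data of the complexes `AA`. -/

namespace Vale.Agent.P257.E

open MvPolynomial Finset Vale.Agent.P257.Q.PC Vale.Agent.P257.X Vale.Agent.P257.X.Cpx
  Vale.Agent.P257.SG

variable {p : ℕ} [Fact p.Prime]

omit [Fact p.Prime] in
theorem Bl_mono {r s : ℕ} (h : r ≤ s) : Bl r ⊆ Bl s := fun x (hx : x.1 ≤ r) => hx.trans h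

theorem supp_mono {r s : ℕ} (h : r ≤ s) {f : KP p} (hf : f ∈ supported (ZMod p) (Bl r)) :
    f ∈ supported (ZMod p) (Bl s) := supported_mono (Bl_mono h) hf

theorem supp_φ {s : ℕ} {i : ℕ} (hi : i ≤ s + 1) {f : KP p} (hf : f ∈ supported (ZMod p) (Bl s)) :
    φ p i f ∈ supported (ZMod p) (Bl (s + 1)) :=
  supported_map _ (fun _ hx => φ_mem_Bl hi hx) hf

theorem supp_iter {s : ℕ} (r : ℕ) {f : KP p} (hf : f ∈ supported (ZMod p) (Bl s)) :
    (φ p 0)^[r] f ∈ supported (ZMod p) (Bl (s + r)) := by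
  induction r with
  | zero => exact hf
  | succ r ih =>
    rw [Function.iterate_succ_apply']
    exact supp_φ (Nat.zero_le _) ih

theorem φ_iter_le (r : ℕ) : ∀ i, i ≤ r → ∀ x : KP p, φ p i ((φ p 0)^[r] x) = (φ p 0)^[r + 1] x := by
  induction r with
  | zero =>
    intro i hi x
    obtain rfl : i = 0 := by omega
    rfl
  | succ r ih =>
    intro i hi x
    rw [Function.iterate_succ_apply' (φ p 0) r]
    cases i with
    | zero => rw [Function.iterate_succ_apply' (φ p 0) (r + 1), Function.iterate_succ_apply']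
    | succ i =>
      rw [φ_φ (Nat.zero_le i), ih i (by omega), Function.iterate_succ_apply' (φ p 0) (r + 1)]

theorem φ_iter_ge (r j : ℕ) (x : KP p) : φ p (j + r) ((φ p 0)^[r] x) = (φ p 0)^[r] (φ p j x) := by
  induction r with
  | zero => rfl
  | succ r ih =>
    rw [Function.iterate_succ_apply', ← add_assoc, φ_φ (Nat.zero_le _), ih,
      Function.iterate_succ_apply']

/-- The Leibniz rule for the cup product `a * (φ 0)^[r] x`. -/
theorem dd_cup (r s : ℕ) {a x : KP p} (ha : a ∈ supported (ZMod p) (Bl r))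
    (hx : x ∈ supported (ZMod p) (Bl s)) :
    dd p (r + s) (a * (φ p 0)^[r] x) = dd p r a * (φ p 0)^[r + 1] x +
      (-1 : ZMod p) ^ r • (a * (φ p 0)^[r] (dd p s x)) := by
  have h1 : a * (φ p 0)^[r] x ∈ supported (ZMod p) (Bl (r + s)) := by
    refine mul_mem (supp_mono (by omega) ha) ?_
    have := supp_iter r hx
    rwa [add_comm] at this
  rw [dd_eq h1, dd_apply r, dd_eq hx, show r + s + 2 = (r + 1) + (s + 1) by ring,
    Finset.sum_range_add, Finset.sum_range_succ' _ (s + 1), add_mul, Finset.sum_mul]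
  have h2 : ∀ i ∈ range (r + 1), (-1 : ZMod p) ^ i • φ p i (a * (φ p 0)^[r] x) =
      ((-1 : ZMod p) ^ i • φ p i a) * (φ p 0)^[r + 1] x := by
    intro i hi
    rw [mem_range] at hi
    rw [map_mul, φ_iter_le r i (by omega), smul_mul_assoc]
  have h3 : ∀ j ∈ range (s + 1), (-1 : ZMod p) ^ (r + 1 + j) • φ p (r + 1 + j)
      (a * (φ p 0)^[r] x) = (-1 : ZMod p) ^ r • (a * ((-1 : ZMod p) ^ (j + 1) •
        (φ p 0)^[r] (φ p (j + 1) x))) := by
    intro j _
    rw [map_mul, φ_of_lt (by omega) ha, show r + 1 + j = (j + 1) + r by ring, φ_iter_ge,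
      mul_smul_comm, smul_smul, ← pow_add]
    congr 2
    ring
  have h4 : (φ p 0)^[r] (∑ k ∈ range (s + 1), (-1 : ZMod p) ^ (k + 1) • φ p (k + 1) x +
      (-1 : ZMod p) ^ 0 • φ p 0 x) = ∑ k ∈ range (s + 1), (-1 : ZMod p) ^ (k + 1) •
      (φ p 0)^[r] (φ p (k + 1) x) + (φ p 0)^[r + 1] x := by
    have key : ∀ r : ℕ, ∀ f : KP p, (φ p 0)^[r] f = ((φ p 0).toLinearMap ^ r) f := by
      intro r f
      induction r with
      | zero => rfl
      | succ r ih => rw [Function.iterate_succ_apply', ih, pow_succ']; rfl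
    rw [key, map_add, map_sum, pow_zero, one_smul, Function.iterate_succ_apply, key r (φ p 0 x)]
    congr 1
    refine Finset.sum_congr rfl fun k _ => ?_
    rw [map_smul, key]
  rw [Finset.sum_congr rfl h2, Finset.sum_congr rfl h3, h4, mul_add, smul_add, ← Finset.smul_sum,
    ← Finset.mul_sum, pow_succ, mul_neg_one, neg_smul, neg_mul, smul_mul_assoc]
  abel

/-- `H_(m+1)`. -/
noncomputable def Hc (p m : ℕ) : KP p := φ p 0 (X (0, m)) - X (0, m)

/-- `B_(m+1)`. -/
noncomputable def Bm (p m : ℕ) : KP p := gam p (Hc p m) (φ p 0 (Hc p m))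

/-- A cochain with coboundary `B_(m+1)`. -/
noncomputable def Gm (p m : ℕ) : KP p := gam p (X (0, m)) (Hc p m)

theorem dd_X (m : ℕ) : dd p 0 (X (0, m)) = Hc p m := by
  rw [dd_apply, Finset.sum_range_one, pow_zero, one_smul, zero_add, pow_one, neg_one_smul, Hc,
    sub_eq_add_neg]

theorem X_mem_Co (m : ℕ) : (X (0, m) : KP p) ∈ Co p 0 (wt p m) :=
  mem_Co.2 ⟨isWeightedHomogeneous_X (ZMod p) (W p) (0, m), X_mem_supported.2 (le_refl 0)⟩

theorem Hc_mem (m : ℕ) : Hc p m ∈ Co p 1 (wt p m) := by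
  rw [← dd_X]; exact dd_mem (X_mem_Co m)

theorem dd_Hc (m : ℕ) : dd p 1 (Hc p m) = 0 := by
  rw [← dd_X]; exact dd_dd (X_mem_Co m)

theorem φ_one_Hc (m : ℕ) : φ p 1 (Hc p m) = Hc p m + φ p 0 (Hc p m) := by
  have h := dd_Hc (p := p) m
  rw [dd_apply, Finset.sum_range_succ, Finset.sum_range_one] at h
  simp only [pow_zero, one_smul, pow_one, neg_smul, Nat.reduceAdd, even_two, Even.neg_pow,
    one_pow] at h
  linear_combination -h

theorem φ_zero_X (m : ℕ) : φ p 0 (X (0, m)) = X (0, m) + Hc p m := by rw [Hc]; ring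

theorem gam_homog {x y : KP p} {N : ℤ} (hx : IsWeightedHomogeneous (W p) x N)
    (hy : IsWeightedHomogeneous (W p) y N) : IsWeightedHomogeneous (W p) (gam p x y) (p * N) := by
  refine IsWeightedHomogeneous.sum _ _ _ fun i hi => ?_
  rw [mem_Ioo] at hi
  have h1 := ((isWeightedHomogeneous_C (W p) ((p.choose i / p : ℕ) : ZMod p)).mul
    (hx.pow i)).mul (hy.pow (p - i))
  have h2 : (0 : ℤ) + i • N + (p - i) • N = p * N := by
    rw [nsmul_eq_mul, nsmul_eq_mul, Nat.cast_sub hi.2.le]; ring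
  rw [h2] at h1
  simpa using h1

theorem gam_supp {x y : KP p} {s : ℕ} (hx : x ∈ supported (ZMod p) (Bl s))
    (hy : y ∈ supported (ZMod p) (Bl s)) : gam p x y ∈ supported (ZMod p) (Bl s) :=
  sum_mem fun _ _ => mul_mem (mul_mem (natCast_mem _ _) (pow_mem hx _)) (pow_mem hy _)

theorem Gm_mem (m : ℕ) : Gm p m ∈ Co p 1 (p * wt p m) :=
  mem_Co.2 ⟨gam_homog (X_mem_Co m).1 (Hc_mem m).1,
    gam_supp (supp_mono (by omega) (X_mem_Co m).2) (Hc_mem m).2⟩

theorem dd_Gm (m : ℕ) : dd p 1 (Gm p m) = Bm p m := by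
  have h := gam_assoc (Fact.out : p.Prime) (X (0, m) : KP p) (Hc p m) (φ p 0 (Hc p m))
  rw [dd_apply, Finset.sum_range_succ, Finset.sum_range_one]
  simp only [pow_zero, one_smul, pow_one, neg_smul, Nat.reduceAdd, even_two, Even.neg_pow,
    one_pow]
  have e0 : φ p 0 (Gm p m) = gam p (X (0, m) + Hc p m) (φ p 0 (Hc p m)) := by
    rw [Gm, ← φ_zero_X]
    exact map_gam (φ p 0).toRingHom _ _
  have e1 : φ p 1 (Gm p m) = gam p (X (0, m)) (Hc p m + φ p 0 (Hc p m)) := by
    rw [Gm, ← φ_one_Hc]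
    have : φ p 1 (X (0, m)) = X (0, m) := by rw [φ_X, if_pos (by norm_num)]
    conv_rhs => rw [← this]
    exact map_gam (φ p 1).toRingHom _ _
  rw [e0, e1, Bm, Gm]
  linear_combination h

theorem Bm_mem (m : ℕ) : Bm p m ∈ Co p 2 (p * wt p m) := by
  rw [← dd_Gm]; exact dd_mem (Gm_mem m)

theorem dd_Bm (m : ℕ) : dd p 2 (Bm p m) = 0 := by
  rw [← dd_Gm]; exact dd_dd (Gm_mem m)

/-- Left cup product with `H_(m+1)`. -/
noncomputable def hop (p m : ℕ) : KP p →ₗ[ZMod p] KP p :=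
  (LinearMap.mulLeft (ZMod p) (Hc p m)).comp (φ p 0).toLinearMap

/-- Left cup product with `B_(m+1)`. -/
noncomputable def bop (p m : ℕ) : KP p →ₗ[ZMod p] KP p :=
  (LinearMap.mulLeft (ZMod p) (Bm p m)).comp ((φ p 0).toLinearMap.comp (φ p 0).toLinearMap)

theorem hop_apply (m : ℕ) (x : KP p) : hop p m x = Hc p m * φ p 0 x := rfl

theorem bop_apply (m : ℕ) (x : KP p) : bop p m x = Bm p m * φ p 0 (φ p 0 x) := rfl

theorem dd_hop (m s : ℕ) {x : KP p} (hx : x ∈ supported (ZMod p) (Bl s)) :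
    dd p (s + 1) (hop p m x) = - hop p m (dd p s x) := by
  have := dd_cup 1 s (Hc_mem (p := p) m).2 hx
  rw [add_comm 1 s, dd_Hc] at this
  simp only [Function.iterate_one, zero_mul, zero_add, pow_one, neg_smul, one_smul] at this
  exact this

theorem dd_bop (m s : ℕ) {x : KP p} (hx : x ∈ supported (ZMod p) (Bl s)) :
    dd p (s + 2) (bop p m x) = bop p m (dd p s x) := by
  have := dd_cup 2 s (Bm_mem (p := p) m).2 hx
  rw [add_comm 2 s, dd_Bm] at this
  simp only [zero_mul, zero_add, even_two, Even.neg_pow, one_pow, one_smul] at this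
  exact this

end Vale.Agent.P257.E
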