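import Vale.Agent.P257.E.Cup

/-! The structure of the cohomology with coefficients `k[t_1^p, t_2^p, ...]`. -/

namespace Vale.Agent.P257.E

open MvPolynomial Finset Vale.Agent.P257.Q.PC Vale.Agent.P257.X Vale.Agent.P257.X.Cpx
  Vale.Agent.P257.SG

variable {p : ℕ} [Fact p.Prime]

theorem Co_mul {r s : ℕ} {M N : ℤ} {a b : KP p} (ha : a ∈ Co p r M) (hb : b ∈ Co p s N)
    (h : r ≤ s) : a * b ∈ Co p s (M + N) :=
  mem_Co.2 ⟨ha.1.mul hb.1, mul_mem (supp_mono h ha.2) hb.2⟩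

theorem pderiv_Hc (m n : ℕ) : pderiv ((0, n) : ℕ × ℕ) (Hc p m) = 0 := by
  rw [Hc, map_sub, pderiv_φ]
  by_cases h : m = n
  · rw [h, pderiv_X_self, map_one, sub_self]
  · rw [pderiv_X_of_ne, map_zero, sub_self]
    rw [Ne, Prod.mk.injEq]; tauto

theorem pderiv_gam (n : ℕ × ℕ) (x y : KP p) : pderiv n (gam p x y) =
    (x + y) ^ (p - 1) * (pderiv n x + pderiv n y) - x ^ (p - 1) * pderiv n x -
      y ^ (p - 1) * pderiv n y := derivation_gam (Fact.out : p.Prime) (pderiv n) x y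

theorem pderiv_Bm (m n : ℕ) : pderiv ((0, n) : ℕ × ℕ) (Bm p m) = 0 := by
  rw [Bm, pderiv_gam, pderiv_φ, pderiv_Hc, map_zero]
  ring

theorem hop_mem {m n s : ℕ} {N : ℤ} {x : KP p} (hx : x ∈ (AA p n).K s N) :
    hop p m x ∈ (AA p n).K (s + 1) (N + wt p m) := by
  rw [mem_AA] at hx ⊢
  refine ⟨?_, fun k hk => ?_⟩
  · rw [add_comm N]
    exact Co_mul (Hc_mem m) (φ_mem (Nat.zero_le _) hx.1) (by omega)
  · rw [hop_apply, pderiv_mul, pderiv_Hc, pderiv_φ, hx.2 k hk]
    simp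

theorem bop_mem {m n s : ℕ} {N : ℤ} {x : KP p} (hx : x ∈ (AA p n).K s N) :
    bop p m x ∈ (AA p n).K (s + 2) (N + p * wt p m) := by
  rw [mem_AA] at hx ⊢
  refine ⟨?_, fun k hk => ?_⟩
  · rw [add_comm N]
    exact Co_mul (Bm_mem m) (φ_mem (Nat.zero_le _) (φ_mem (Nat.zero_le _) hx.1)) (by omega)
  · rw [bop_apply, pderiv_mul, pderiv_Bm, pderiv_φ, pderiv_φ, hx.2 k hk]
    simp

theorem hop_Z {m n s : ℕ} {N : ℤ} {x : KP p} (hx : (AA p n).Z s N x) :
    (AA p n).Z (s + 1) (N + wt p m) (hop p m x) := by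
  refine ⟨hop_mem hx.1, ?_⟩
  have h2 : dd p s x = 0 := hx.2
  rw [AA_d, dd_hop m s (mem_AA.1 hx.1).1.2, h2, map_zero, neg_zero]

theorem bop_Z {m n s : ℕ} {N : ℤ} {x : KP p} (hx : (AA p n).Z s N x) :
    (AA p n).Z (s + 2) (N + p * wt p m) (bop p m x) := by
  refine ⟨bop_mem hx.1, ?_⟩
  have h2 : dd p s x = 0 := hx.2
  rw [AA_d, dd_bop m s (mem_AA.1 hx.1).1.2, h2, map_zero]

theorem hop_B {m n s : ℕ} {N : ℤ} {x : KP p} (hx : (AA p n).B s N x) :
    (AA p n).B (s + 1) (N + wt p m) (hop p m x) := by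
  cases s with
  | zero =>
    have : x = 0 := hx
    rw [this, map_zero]; exact B.zero _ _
  | succ s =>
    obtain ⟨y, hy, rfl⟩ := hx
    refine ⟨- hop p m y, neg_mem (hop_mem hy), ?_⟩
    rw [map_neg, AA_d, AA_d, dd_hop m s (mem_AA.1 hy).1.2, neg_neg]

theorem bop_B {m n s : ℕ} {N : ℤ} {x : KP p} (hx : (AA p n).B s N x) :
    (AA p n).B (s + 2) (N + p * wt p m) (bop p m x) := by
  cases s with
  | zero =>
    have : x = 0 := hx
    rw [this, map_zero]; exact B.zero _ _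
  | succ s =>
    obtain ⟨y, hy, rfl⟩ := hx
    refine ⟨bop p m y, bop_mem hy, ?_⟩
    rw [AA_d, AA_d, dd_bop m s (mem_AA.1 hy).1.2]

theorem mem_ker_AA {m s : ℕ} {N : ℤ} {x : KP p} :
    x ∈ ((AA p (m + 1)).Ker (der m)).K s N ↔ x ∈ (AA p m).K s N := by
  rw [mem_ker, mem_AA, mem_AA, DD_apply]
  refine ⟨fun h => ⟨h.1.1, fun n hn => ?_⟩, fun h => ⟨⟨h.1, fun n hn => h.2 n (by omega)⟩,
    h.2 m le_rfl⟩⟩
  rcases Nat.eq_or_lt_of_le hn with rfl | hn
  · exact h.2
  · exact h.1.2 n hn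

theorem Z_ker_AA {m s : ℕ} {N : ℤ} {x : KP p} :
    ((AA p (m + 1)).Ker (der m)).Z s N x ↔ (AA p m).Z s N x := by
  unfold Cpx.Z
  rw [mem_ker_AA]
  rfl

theorem B_ker_AA {m s : ℕ} {N : ℤ} {x : KP p} :
    ((AA p (m + 1)).Ker (der m)).B s N x ↔ (AA p m).B s N x := by
  cases s with
  | zero => rfl
  | succ s =>
    simp only [Cpx.B, mem_ker_AA]
    rfl

theorem Z_le {m n s : ℕ} (hmn : m ≤ n) {N : ℤ} {x : KP p} (hx : (AA p m).Z s N x) :
    (AA p n).Z s N x :=
  ⟨mem_AA.2 ⟨(mem_AA.1 hx.1).1, fun k hk => (mem_AA.1 hx.1).2 k (by omega)⟩, by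
    have := hx.2
    rw [AA_d] at this ⊢
    exact this⟩

theorem B_le {m n s : ℕ} (hmn : m ≤ n) {N : ℤ} {x : KP p} (hx : (AA p m).B s N x) :
    (AA p n).B s N x := by
  cases s with
  | zero =>
    have h0 : x = 0 := hx
    rw [h0]; exact B.zero _ _
  | succ s =>
    obtain ⟨y, hy, hy'⟩ := hx
    rw [AA_d] at hy'
    refine ⟨y, mem_AA.2 ⟨(mem_AA.1 hy).1, fun k hk => (mem_AA.1 hy).2 k (by omega)⟩, ?_⟩
    rw [AA_d]
    exact hy'

theorem X_pow_mem (m k : ℕ) : (X (0, m) ^ k : KP p) ∈ Co p 0 (k * wt p m) := by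
  have h1 := (X_mem_Co (p := p) m).1.pow k
  rw [nsmul_eq_mul] at h1
  have h2 : (X (0, m) : KP p) ∈ supported (ZMod p) (Bl 0) := (X_mem_Co m).2
  exact mem_Co.2 ⟨h1, pow_mem h2 k⟩

theorem p_sub_one_cast : ((p - 1 : ℕ) : ℤ) = (p - 1 : ℤ) := by
  rw [Nat.cast_sub (Fact.out : p.Prime).one_le]; push_cast; ring

/-- The collapse data. -/
theorem col (m : ℕ) : Col (der (p := p) m) (fun x => X (0, m) * x)
    (fun x => -(X (0, m) ^ (p - 1) * x)) (fun x => -(Gm p m * φ p 0 x))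
    (hop p m).toAddMonoidHom (bop p m).toAddMonoidHom where
  T_mem s N x hx := by
    rw [Z_ker_AA] at hx
    have hx' := mem_AA.1 hx.1
    refine mem_AA.2 ⟨?_, fun n hn => ?_⟩
    · rw [add_comm N]; exact Co_mul (X_mem_Co m) hx'.1 (Nat.zero_le _)
    · rw [pderiv_mul, pderiv_X_of_ne (by rw [Ne, Prod.mk.injEq]; omega), hx'.2 n (by omega)]
      simp
  T_D s N x hx := by
    rw [Z_ker_AA] at hx
    have hx' := mem_AA.1 hx.1
    rw [DD_apply, pderiv_mul, pderiv_X_self, hx'.2 m le_rfl]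
    simp
  T_d s N x hx := by
    rw [Z_ker_AA] at hx
    have hx' := mem_AA.1 hx.1
    have h2 : dd p s x = 0 := hx.2
    have := dd_cup 0 s (X_mem_Co (p := p) m).2 hx'.1.2
    rw [zero_add, dd_X, Function.iterate_zero, id, id, h2] at this
    simp only [mul_zero, smul_zero, add_zero] at this
    exact this
  hop_Z s N x hx := by
    rw [Z_ker_AA] at hx ⊢
    exact hop_Z hx
  G_mem s N x hx := by
    rw [Z_ker_AA] at hx
    have hx' := mem_AA.1 hx.1
    refine neg_mem (mem_AA.2 ⟨?_, fun n hn => ?_⟩)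
    · rw [add_comm N, ← p_sub_one_cast]
      exact Co_mul (X_pow_mem m (p - 1)) hx'.1 (Nat.zero_le _)
    · rw [pderiv_mul, pderiv_pow, pderiv_X_of_ne (by rw [Ne, Prod.mk.injEq]; omega),
        hx'.2 n (by omega)]
      simp
  G_D s N x hx := by
    rw [Z_ker_AA] at hx
    have hx' := mem_AA.1 hx.1
    rw [DD_iter]
    have h3 : ∀ (j : ℕ) (g : KP p), (pderiv ((0, m) : ℕ × ℕ))^[j] (-g) =
        -(pderiv ((0, m) : ℕ × ℕ))^[j] g := by
      intro j g
      induction j with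
      | zero => rfl
      | succ j ih => rw [Function.iterate_succ_apply', ih, map_neg, Function.iterate_succ_apply']
    rw [h3, pderiv_iter_mul_pow _ (hx'.2 m le_rfl), ZMod.wilsons_lemma]
    simp
  U_mem s N x hx := by
    rw [Z_ker_AA] at hx
    have hx' := mem_AA.1 hx.1
    refine neg_mem (mem_AA.2 ⟨?_, fun n hn => ?_⟩)
    · rw [add_comm N]
      exact Co_mul (Gm_mem m) (φ_mem (Nat.zero_le _) hx'.1) (by omega)
    · rw [pderiv_mul, pderiv_φ, hx'.2 n (by omega), Gm, pderiv_gam, pderiv_Hc,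
        pderiv_X_of_ne (by rw [Ne, Prod.mk.injEq]; omega)]
      simp
  U_D s N x hx := by
    rw [Z_ker_AA] at hx
    have hx' := mem_AA.1 hx.1
    have h2 : dd p s x = 0 := hx.2
    have e1 := dd_cup 0 s (X_pow_mem (p := p) m (p - 1)).2 hx'.1.2
    rw [zero_add, Function.iterate_zero, id, id, h2, mul_zero, smul_zero, add_zero,
      Function.iterate_one] at e1
    have e2 : dd p 0 (X (0, m) ^ (p - 1)) = φ p 0 (X (0, m)) ^ (p - 1) - X (0, m) ^ (p - 1) := by
      rw [dd_apply, Finset.sum_range_one, pow_zero, one_smul, zero_add, pow_one, neg_one_smul,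
        map_pow, sub_eq_add_neg]
    rw [DD_apply, AA_d, map_neg, map_neg, e1, e2, pderiv_mul, pderiv_φ, hx'.2 m le_rfl, Gm,
      pderiv_gam, pderiv_Hc, pderiv_X_self, φ_zero_X]
    simp only [map_zero, add_zero, mul_zero, sub_zero, mul_one]
  U_d s N x hx := by
    rw [Z_ker_AA] at hx
    have hx' := mem_AA.1 hx.1
    have h2 : dd p s x = 0 := hx.2
    have e1 := dd_cup 1 s (Gm_mem (p := p) m).2 hx'.1.2
    rw [add_comm 1 s, h2, dd_Gm] at e1
    rw [AA_d, map_neg]
    change _ = - bop p m x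
    rw [bop_apply]
    congr 1
    rw [Function.iterate_one] at e1
    rw [e1]
    simp
  bop_Z s N x hx := by
    rw [Z_ker_AA] at hx ⊢
    exact bop_Z hx

/-! ### The top of the tower -/

/-- The contraction. -/
noncomputable def κ (p : ℕ) : KP p →ₐ[ZMod p] KP p :=
  aeval fun x => if x.1 = 0 then 0 else X (x.1 - 1, x.2)

theorem κ_tt_zero (n : ℕ) : κ p (tt p 0 n) = if n = 0 then 1 else 0 := by
  cases n with
  | zero => simp [tt]
  | succ n => rw [tt_succ, κ, aeval_X, if_pos rfl, if_neg (by omega)]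

theorem κ_tt_succ (j n : ℕ) : κ p (tt p (j + 1) n) = tt p j n := by
  cases n with
  | zero => simp [tt]
  | succ n => rw [tt_succ, κ, aeval_X, if_neg (by dsimp only; omega), tt_succ]; rfl

theorem κ_φ_zero (f : KP p) : κ p (φ p 0 f) = f := by
  have : (κ p).comp (φ p 0) = AlgHom.id _ _ := by
    refine MvPolynomial.algHom_ext fun x => ?_
    obtain ⟨l, n⟩ := x
    rw [AlgHom.comp_apply, ← tt_succ, AlgHom.id_apply]
    cases l with
    | zero =>
      rw [φ_tt, map_sum, Finset.sum_eq_single (n + 1, 0)]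
      · rw [map_mul, map_pow, κ_tt_zero, if_pos rfl, one_pow, mul_one, κ_tt_succ]
      · rintro ⟨a, b⟩ hab hne
        rw [HasAntidiagonal.mem_antidiagonal] at hab
        have hb : b ≠ 0 := by
          rintro rfl
          apply hne
          rw [Prod.mk.injEq]
          dsimp only at hab
          omega
        rw [map_mul, map_pow, κ_tt_zero, if_neg hb,
          zero_pow (pow_ne_zero _ (Fact.out : p.Prime).ne_zero), mul_zero]
      · intro h3
        exact absurd (HasAntidiagonal.mem_antidiagonal.2 (Nat.add_zero _)) h3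
    | succ l => rw [φ_tt_gt (Nat.succ_pos l), κ_tt_succ]
  exact DFunLike.congr_fun this f

theorem κ_φ_succ (i : ℕ) (f : KP p) : κ p (φ p (i + 1) f) = φ p i (κ p f) := by
  have : (κ p).comp (φ p (i + 1)) = (φ p i).comp (κ p) := by
    refine MvPolynomial.algHom_ext fun x => ?_
    obtain ⟨l, n⟩ := x
    rw [AlgHom.comp_apply, AlgHom.comp_apply, ← tt_succ]
    cases l with
    | zero => rw [φ_tt_lt (Nat.succ_pos i), κ_tt_zero, if_neg (by omega), map_zero]
    | succ l =>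
      rw [κ_tt_succ]
      rcases lt_trichotomy l i with h | h | h
      · rw [φ_tt_lt (by omega), κ_tt_succ, φ_tt_lt h]
      · subst h
        rw [φ_tt, φ_tt, map_sum]
        refine Finset.sum_congr rfl fun y _ => ?_
        rw [map_mul, map_pow, κ_tt_succ, κ_tt_succ]
      · rw [φ_tt_gt (by omega), κ_tt_succ, φ_tt_gt h]
  exact DFunLike.congr_fun this f

theorem κ_mem {s : ℕ} {N : ℤ} {f : KP p} (hf : f ∈ Co p (s + 1) N) : κ p f ∈ Co p s N := by
  refine mem_Co.2 ⟨homogeneous_map _ (fun x _ => ?_) hf.2 hf.1, supported_map _ (fun x hx => ?_) hf.2⟩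
  · rw [κ, aeval_X]
    split_ifs
    · exact isWeightedHomogeneous_zero _ _ _
    · exact isWeightedHomogeneous_X (ZMod p) (W p) (x.1 - 1, x.2)
  · rw [κ, aeval_X]
    have hx' : x.1 ≤ s + 1 := hx
    split_ifs
    · exact zero_mem _
    · exact X_mem_supported.2 (show x.1 - 1 ≤ s by omega)

theorem κ_dd {s : ℕ} {f : KP p} (hf : f ∈ supported (ZMod p) (Bl (s + 1))) :
    κ p (dd p (s + 1) f) = f - dd p s (κ p f) := by
  rw [dd_apply, dd_apply, Finset.sum_range_succ', map_add, map_add, map_sum]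
  simp only [map_smul, κ_φ_succ, κ_φ_zero, pow_zero, one_smul]
  have : ∑ x ∈ range (s + 1), (-1 : ZMod p) ^ (x + 1) • φ p x (κ p f) =
      - ∑ x ∈ range (s + 1), (-1 : ZMod p) ^ x • φ p x (κ p f) := by
    rw [← Finset.sum_neg_distrib]
    refine Finset.sum_congr rfl fun i _ => ?_
    rw [pow_succ, mul_neg_one, neg_smul]
  rw [this, pow_succ (-1 : ZMod p) (s + 1), mul_neg_one, neg_smul]
  abel

/-- Exactness at the top. -/
theorem top_ex {m s : ℕ} {N : ℤ} (hN : N < wt p m) {z : KP p} (hz : (AA p m).Z (s + 1) N z) :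
    (AA p m).B (s + 1) N z := by
  have hz' := (mem_AA.1 hz.1).1
  have hd : dd p (s + 1) z = 0 := hz.2
  refine ⟨κ p z, mem_AA.2 ⟨κ_mem hz', fun n hn => pderiv_of_lt ?_ (κ_mem hz') 0⟩, ?_⟩
  · refine hN.trans_le ?_
    have : wt p m ≤ wt p n := by
      rw [wt, wt]
      exact Finset.sum_le_sum_of_subset (by
        intro x hx
        rw [mem_range] at hx ⊢
        omega)
    exact_mod_cast this
  · have := κ_dd hz'.2
    rw [hd, map_zero] at this
    rw [AA_d]
    exact (sub_eq_zero.1 this.symm).symm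

theorem top_zero {m : ℕ} {N : ℤ} {z : KP p} (hz : (AA p m).Z 0 N z) :
    ∃ c : ZMod p, z = c • 1 ∧ (N ≠ 0 → c = 0) := by
  have hz' := (mem_AA.1 hz.1).1
  have hd : dd p 0 z = 0 := hz.2
  rw [dd_apply, Finset.sum_range_one, pow_zero, one_smul, zero_add, pow_one, neg_one_smul] at hd
  have h1 : z = κ p z := by
    have := congrArg (κ p) hd
    rw [map_add, map_neg, κ_φ_zero, map_zero] at this
    linear_combination this
  have h2 : ∀ f : KP p, f ∈ supported (ZMod p) (Bl 0) → κ p f = C (constantCoeff f) := by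
    intro f hf
    have : ∀ x ∈ Bl 0, κ p (X x) = ((Algebra.ofId (ZMod p) (KP p)).comp
        (aeval (R := ZMod p) (S₁ := ZMod p) fun _ : ℕ × ℕ => (0 : ZMod p))) (X x) := by
      intro x hx
      have hx' : x.1 ≤ 0 := hx
      rw [κ, aeval_X, if_pos (by omega), AlgHom.comp_apply, aeval_X, map_zero]
    rw [eqOn_supported _ _ this hf, AlgHom.comp_apply]
    have h3 : (aeval (R := ZMod p) (S₁ := ZMod p) fun _ : ℕ × ℕ => (0 : ZMod p)) f =
        constantCoeff f := by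
      have := MvPolynomial.aeval_zero (R := ZMod p) (S₁ := ZMod p) f
      simpa using this
    rw [h3]
    rfl
  have h4 := h2 z hz'.2
  refine ⟨constantCoeff z, ?_, fun hN => ?_⟩
  · rw [h1, h4, smul_eq_C_mul, mul_one]
    simp
  · by_contra hc
    apply hN
    have := hz'.1 (d := 0) (by
      rw [← constantCoeff_eq]; exact hc)
    simpa using this.symm

end Vale.Agent.P257.E
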