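import Vale.Agent.P257.E.S3abs

/-! The counting part of the proof of `Ext_P^(6, 2 + 4 p + 2 p ^ 2) = 0`. -/

namespace Vale.Agent.P257.E

open Vale.Agent.P257.X Vale.Agent.P257.X.Cpx

/-- Uniqueness of digits. -/
theorem digits3 {p c₀ c₁ c₂ d₀ d₁ d₂ : ℕ} (h0 : c₀ < p) (h1 : c₁ < p) (h0' : d₀ < p)
    (h1' : d₁ < p) (h : c₀ + c₁ * p + c₂ * p ^ 2 = d₀ + d₁ * p + d₂ * p ^ 2) :
    c₀ = d₀ ∧ c₁ = d₁ ∧ c₂ = d₂ := by
  have hp : 0 < p := by omega
  have e1 : ∀ a b c : ℕ, a + b * p + c * p ^ 2 = a + p * (b + p * c) := fun a b c => by ring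
  rw [e1, e1] at h
  have k0 : c₀ = d₀ := by
    have := congrArg (· % p) h
    simpa [Nat.add_mul_mod_self_left, Nat.mod_eq_of_lt h0, Nat.mod_eq_of_lt h0'] using this
  subst k0
  have h2 : c₁ + p * c₂ = d₁ + p * d₂ := Nat.eq_of_mul_eq_mul_left hp (by omega)
  have k1 : c₁ = d₁ := by
    have := congrArg (· % p) h2
    simpa [Nat.add_mul_mod_self_left, Nat.mod_eq_of_lt h1, Nat.mod_eq_of_lt h1'] using this
  subst k1
  exact ⟨rfl, rfl, Nat.eq_of_mul_eq_mul_left hp (by omega)⟩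

/-- There is a monomial `B₁^i H₁^e₁ B₂^j H₂^e₂ H₃^e₃` of degree `(s, N)`. -/
def HasMon (p s N : ℕ) : Prop := ∃ i j e₁ e₂ e₃ : ℕ, e₁ ≤ 1 ∧ e₂ ≤ 1 ∧ e₃ ≤ 1 ∧
  s = 2 * i + 2 * j + e₁ + e₂ + e₃ ∧
  N = i * p + j * (p + p ^ 2) + e₁ + e₂ * (1 + p) + e₃ * (1 + p + p ^ 2)

theorem HasMon.digits {p s a b c : ℕ} (hp : 5 ≤ p) (hs : s ≤ 6) (ha : a < 5) (hb : b < 5)
    (h : HasMon p s (a + b * p + c * p ^ 2)) : ∃ i j e₁ e₂ e₃ : ℕ, e₁ ≤ 1 ∧ e₂ ≤ 1 ∧ e₃ ≤ 1 ∧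
      s = 2 * i + 2 * j + e₁ + e₂ + e₃ ∧ a = e₁ + e₂ + e₃ ∧ b = i + j + e₂ + e₃ ∧ c = j + e₃ := by
  obtain ⟨i, j, e₁, e₂, e₃, h1, h2, h3, hs', hN⟩ := h
  have hN' : a + b * p + c * p ^ 2 =
      (e₁ + e₂ + e₃) + (i + j + e₂ + e₃) * p + (j + e₃) * p ^ 2 := by rw [hN]; ring
  obtain ⟨k0, k1, k2⟩ := digits3 (by omega) (by omega) (by omega) (by omega) hN'
  exact ⟨i, j, e₁, e₂, e₃, h1, h2, h3, hs', k0, k1, k2⟩

variable {A : Type*} [AddCommGroup A]

theorem ex_of_neg {C : Cpx A} (hC : Pos C) {s N} (hN : N < 0) : C.Ex s N := by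
  intro f hf
  rw [hC s N f hf.1 hN]
  exact B.zero s N

/-- `S3abs` with all the counting done. -/
theorem S3count {p : ℕ} (hp : 5 ≤ p) {F : Cpx A} (hF : Pos F) {Dx Dy Dw : A →+ A}
    (hx : Der F p (p + p ^ 2) Dx) (hy : Der (F.Ker hx) p p Dy)
    (hw : Der ((F.Ker hx).Ker hy) p (p ^ 2) Dw)
    (ymem : ∀ s N, ∀ f ∈ F.K s N, Dy f ∈ F.K s (N - p))
    (ycomm : ∀ s N, ∀ f ∈ F.K s N, Dy (F.d s f) = F.d s (Dy f))
    (xy : ∀ s N, ∀ f ∈ F.K s N, Dx (Dy f) = Dy (Dx f))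
    (hv : ∀ s N : ℕ, s ≤ 6 → N < p ^ 3 → ¬ HasMon p s N → F.Ex s N)
    (hA : ∀ z, F.Z 6 (2 + 4 * p + 2 * p ^ 2) z → Dx z = 0 → F.B 6 (2 + 4 * p + 2 * p ^ 2) z)
    (hB : ∀ z, F.Z 4 (2 + 3 * p + p ^ 2) z → Dx z = 0 → F.B 4 (2 + 3 * p + p ^ 2) z)
    (hC : ∀ z, F.Z 4 (2 + 2 * p + p ^ 2) z → ∃ z₁ z₂, F.Z 4 (2 + 3 * p + 2 * p ^ 2) z₁ ∧
      F.Z 4 (2 + 3 * p + p ^ 2) z₂ ∧ F.B 4 (2 + 2 * p + p ^ 2) (z - Dx z₁ - Dy z₂)) :
    (((F.Ker hx).Ker hy).Ker hw).Ex 6 (2 + 4 * p + 2 * p ^ 2) := by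
  have hp0 : (5 : ℤ) ≤ p := by exact_mod_cast hp
  have hp1 : 1 ≤ p := by omega
  have q1 : (5 : ℤ) * p ≤ p ^ 2 := by nlinarith
  have q2 : (5 : ℤ) * p ^ 2 ≤ p ^ 3 := by nlinarith
  have q1' : 5 * p ≤ p ^ 2 := by nlinarith
  have q2' : 5 * p ^ 2 ≤ p ^ 3 := by nlinarith
  have hK2 : Pos (F.Ker hx) := hF.ker hx
  have hK1 : Pos ((F.Ker hx).Ker hy) := hK2.ker hy
  -- vanishing of `H(F)`
  have van : ∀ s b c : ℕ, s ≤ 6 → b < 5 → c < 5 →
      (¬ ∃ i j e₁ e₂ e₃ : ℕ, e₁ ≤ 1 ∧ e₂ ≤ 1 ∧ e₃ ≤ 1 ∧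
      s = 2 * i + 2 * j + e₁ + e₂ + e₃ ∧ 2 = e₁ + e₂ + e₃ ∧ b = i + j + e₂ + e₃ ∧ c = j + e₃) →
      F.Ex s ((2 + b * p + c * p ^ 2 : ℕ) : ℤ) := by
    intro s b c hs hb hc h
    refine hv s _ hs ?_ fun h' => h (h'.digits hp hs (by norm_num) hb)
    have : b * p ≤ 4 * p := Nat.mul_le_mul_right _ (by omega)
    have : c * p ^ 2 ≤ 4 * p ^ 2 := Nat.mul_le_mul_right _ (by omega)
    nlinarith
  have vodd : ∀ s b c : ℕ, s ≤ 6 → b < 5 → c < 5 → s % 2 = 1 →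
      F.Ex s ((2 + b * p + c * p ^ 2 : ℕ) : ℤ) := by
    intro s b c hs hb hc h
    refine van s b c hs hb hc ?_
    rintro ⟨i, j, e₁, e₂, e₃, h1, h2, h3, h4, h5, h6, h7⟩
    omega
  -- towers
  have tower : ∀ s : ℕ, ∀ N : ℤ, N < p * (p + p ^ 2) → F.Ex s N →
      (∀ s', s = s' + 1 → F.Ex s' (N - (p + p ^ 2))) → (F.Ker hx).Ex s N := by
    intro s N hN h1 h2
    refine hx.tower_step hp1 h1 h2 fun s' _ => ex_neg hx hF (by linarith)
  have t1 : ∀ s b c : ℕ, s ≤ 6 → 1 ≤ b → b < 5 → c + 1 < 5 → s % 2 = 1 →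
      (∀ s', s = s' + 1 → ¬ ∃ i j e₁ e₂ e₃ : ℕ, e₁ ≤ 1 ∧ e₂ ≤ 1 ∧ e₃ ≤ 1 ∧
      s' = 2 * i + 2 * j + e₁ + e₂ + e₃ ∧ 2 = e₁ + e₂ + e₃ ∧ b - 1 = i + j + e₂ + e₃ ∧
        c = j + e₃) →
      (F.Ker hx).Ex s ((2 + b * p + (c + 1) * p ^ 2 : ℕ) : ℤ) := by
    intro s b c hs hb1 hb hc hodd h
    refine tower _ _ ?_ (vodd _ _ _ hs hb hc hodd) fun s' hs' => ?_
    · push_cast
      have : (b : ℤ) ≤ 4 := by exact_mod_cast (by omega : b ≤ 4)
      have : (c : ℤ) + 1 ≤ 4 := by exact_mod_cast (by omega : c + 1 ≤ 4)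
      nlinarith
    · have := van s' (b - 1) c (by omega) (by omega) (by omega) (h s' hs')
      obtain ⟨b, rfl⟩ : ∃ b', b = b' + 1 := ⟨b - 1, by omega⟩
      rw [Nat.add_sub_cancel] at this
      convert this using 1
      push_cast
      ring
  have t0 : ∀ s b : ℕ, s ≤ 6 → b < 5 → F.Ex s ((2 + b * p + 0 * p ^ 2 : ℕ) : ℤ) →
      (F.Ker hx).Ex s ((2 + b * p + 0 * p ^ 2 : ℕ) : ℤ) := by
    intro s b hs hb h
    refine tower _ _ ?_ h fun s' hs' => ex_of_neg hF ?_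
    · push_cast
      have : (b : ℤ) ≤ 4 := by exact_mod_cast (by omega : b ≤ 4)
      nlinarith
    · push_cast
      have : (b : ℤ) ≤ 4 := by exact_mod_cast (by omega : b ≤ 4)
      nlinarith
  have g : ∀ b c : ℕ, ((2 + b * p + c * p ^ 2 : ℕ) : ℤ) = 2 + b * p + c * p ^ 2 := by
    intro b c; push_cast; ring
  have tt : ∀ s b : ℕ, s ≤ 6 → 1 ≤ b → b < 5 → F.Ex s ((2 + b * p + 1 * p ^ 2 : ℕ) : ℤ) →
      (∀ s', s = s' + 1 → F.Ex s' ((2 + (b - 1 : ℕ) * p + 0 * p ^ 2 : ℕ) : ℤ)) →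
      (F.Ker hx).Ex s ((2 + b * p + 1 * p ^ 2 : ℕ) : ℤ) := by
    intro s b hs hb1 hb h1 h2
    refine tower _ _ ?_ h1 fun s' hs' => ?_
    · push_cast
      have : (b : ℤ) ≤ 4 := by exact_mod_cast (by omega : b ≤ 4)
      nlinarith
    · have := h2 s' hs'
      obtain ⟨b, rfl⟩ : ∃ b', b = b' + 1 := ⟨b - 1, by omega⟩
      rw [Nat.add_sub_cancel] at this
      convert this using 1
      push_cast
      ring
  have c1 : F.Ex 5 (2 + 3 * p + p ^ 2) := by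
    have := vodd 5 3 1 (by norm_num) (by norm_num) (by norm_num) (by norm_num)
    convert this using 1; push_cast; ring
  have c2 : F.Ex 5 (2 + 3 * p + 2 * p ^ 2) := by
    have := vodd 5 3 2 (by norm_num) (by norm_num) (by norm_num) (by norm_num)
    convert this using 1; push_cast; ring
  have c3 : F.Ex 3 (2 + 2 * p) := by
    have := vodd 3 2 0 (by norm_num) (by norm_num) (by norm_num) (by norm_num)
    convert this using 1; push_cast; ring
  have c4 : (F.Ker hx).Ex 5 (2 + 4 * p + p ^ 2) := by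
    have := t1 5 4 0 (by norm_num) (by norm_num) (by norm_num) (by norm_num) (by norm_num) (by
      rintro s' hs' ⟨i, j, e₁, e₂, e₃, h1, h2, h3, h4, h5, h6, h7⟩
      omega)
    convert this using 1; push_cast; ring
  have d1 : (F.Ker hx).Ex 4 (2 + 4 * p + p ^ 2) := by
    have := tt 4 4 (by norm_num) (by norm_num) (by norm_num)
      (van 4 4 1 (by norm_num) (by norm_num) (by norm_num) (by
        rintro ⟨i, j, e₁, e₂, e₃, h1, h2, h3, h4, h5, h6, h7⟩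
        omega)) (by
        intro s' hs'
        obtain rfl : s' = 3 := by omega
        exact vodd 3 3 0 (by norm_num) (by norm_num) (by norm_num) (by norm_num))
    convert this using 1; push_cast; ring
  have d2 : (F.Ker hx).Ex 3 (2 + 3 * p + p ^ 2) := by
    have := tt 3 3 (by norm_num) (by norm_num) (by norm_num)
      (vodd 3 3 1 (by norm_num) (by norm_num) (by norm_num) (by norm_num)) (by
        intro s' hs'
        obtain rfl : s' = 2 := by omega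
        exact van 2 2 0 (by norm_num) (by norm_num) (by norm_num) (by
          rintro ⟨i, j, e₁, e₂, e₃, h1, h2, h3, h4, h5, h6, h7⟩
          omega))
    convert this using 1; push_cast; ring
  have d3 : (F.Ker hx).Ex 2 (2 + 4 * p) := by
    have := t0 2 4 (by norm_num) (by norm_num)
      (van 2 4 0 (by norm_num) (by norm_num) (by norm_num) (by
        rintro ⟨i, j, e₁, e₂, e₃, h1, h2, h3, h4, h5, h6, h7⟩
        omega))
    convert this using 1; push_cast; ring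
  have d4 : (F.Ker hx).Ex 1 (2 + 3 * p) := by
    have := t0 1 3 (by norm_num) (by norm_num)
      (vodd 1 3 0 (by norm_num) (by norm_num) (by norm_num) (by norm_num))
    convert this using 1; push_cast; ring
  have d5 : (F.Ker hx).Ex 3 (2 + 4 * p) := by
    have := t0 3 4 (by norm_num) (by norm_num)
      (vodd 3 4 0 (by norm_num) (by norm_num) (by norm_num) (by norm_num))
    convert this using 1; push_cast; ring
  have d6 : (F.Ker hx).Ex 2 (2 + 3 * p) := by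
    have := t0 2 3 (by norm_num) (by norm_num)
      (van 2 3 0 (by norm_num) (by norm_num) (by norm_num) (by
        rintro ⟨i, j, e₁, e₂, e₃, h1, h2, h3, h4, h5, h6, h7⟩
        omega))
    convert this using 1; push_cast; ring
  have c5 : ((F.Ker hx).Ker hy).Ex 4 (2 + 4 * p + p ^ 2) := by
    refine hy.tower hp1 _ _ ?_
    intro s' ε j hε hs'
    have hj : j ≤ 2 := by omega
    interval_cases j
    · interval_cases ε
      · obtain rfl : s' = 4 := by omega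
        convert d1 using 1; push_cast; ring
      · obtain rfl : s' = 3 := by omega
        convert d2 using 1; push_cast; ring
    · interval_cases ε
      · obtain rfl : s' = 2 := by omega
        convert d3 using 1; push_cast; ring
      · obtain rfl : s' = 1 := by omega
        convert d4 using 1; push_cast; ring
    · refine ex_of_neg hK2 ?_
      have : (0 : ℤ) ≤ ε := by positivity
      push_cast
      nlinarith
  have c6 : ((F.Ker hx).Ker hy).Ex 3 (2 + 4 * p) := by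
    refine hy.tower hp1 _ _ ?_
    intro s' ε j hε hs'
    have hj : j ≤ 1 := by omega
    interval_cases j
    · interval_cases ε
      · obtain rfl : s' = 3 := by omega
        convert d5 using 1; push_cast; ring
      · obtain rfl : s' = 2 := by omega
        convert d6 using 1; push_cast; ring
    · refine ex_of_neg hK2 ?_
      have : (0 : ℤ) ≤ ε := by positivity
      push_cast
      nlinarith
  exact S3abs hp hF hx hy hw ymem ycomm xy c1 c2 c3 c4 c5 c6 hA hB hC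

end Vale.Agent.P257.E
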