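import Vale.Agent.P257.E.Struct
import Vale.Agent.P257.E.S3count

/-! Corollaries of the structure theorem. -/

namespace Vale.Agent.P257.E

open MvPolynomial Finset Vale.Agent.P257.Q.PC Vale.Agent.P257.X Vale.Agent.P257.X.Cpx
  Vale.Agent.P257.SG

variable {p : ℕ} [Fact p.Prime]

/-- No monomial, no class. -/
theorem ex_of_no_mono (r m s : ℕ) (N : ℤ) (hN : N < wt p (m + r))
    (h : ∀ L : List (ℕ × ℕ), L.length = r → (∀ x ∈ L, x.2 ≤ 1) → sd L = s →
      ((nd p m L : ℕ) : ℤ) = N → False) : (AA p m).Ex s N := by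
  intro z hz
  obtain ⟨x, hx, hb⟩ := FP_span r m s N z hN hz
  have hx0 : x = 0 := by
    have : VV p r m s N = ⊥ := by
      rw [VV, Submodule.span_eq_bot]
      rintro f ⟨L, h1, h2, h3, h4, -⟩
      exact (h L h1 h2 h3 h4).elim
    rw [this] at hx
    exact hx
  rwa [hx0, sub_zero] at hb

/-- One monomial. -/
theorem one_mono (r m s : ℕ) (N : ℤ) (hN : N < wt p (m + r)) (L₀ : List (ℕ × ℕ))
    (h : ∀ L : List (ℕ × ℕ), L.length = r → (∀ x ∈ L, x.2 ≤ 1) → sd L = s →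
      ((nd p m L : ℕ) : ℤ) = N → L = L₀) {z : KP p} (hz : (AA p m).Z s N z) :
    ∃ c : ZMod p, (AA p m).B s N (z - c • mono p m L₀) := by
  obtain ⟨x, hx, hb⟩ := FP_span r m s N z hN hz
  have : VV p r m s N ≤ Submodule.span (ZMod p) {mono p m L₀} := by
    refine Submodule.span_mono ?_
    rintro f ⟨L, h1, h2, h3, h4, rfl⟩
    rw [h L h1 h2 h3 h4]
    rfl
  obtain ⟨c, rfl⟩ := Submodule.mem_span_singleton.1 (this hx)
  exact ⟨c, hb⟩

/-- Two monomials. -/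
theorem two_mono (r m s : ℕ) (N : ℤ) (hN : N < wt p (m + r)) (L₀ L₁ : List (ℕ × ℕ))
    (h : ∀ L : List (ℕ × ℕ), L.length = r → (∀ x ∈ L, x.2 ≤ 1) → sd L = s →
      ((nd p m L : ℕ) : ℤ) = N → L = L₀ ∨ L = L₁) {z : KP p} (hz : (AA p m).Z s N z) :
    ∃ c d : ZMod p, (AA p m).B s N (z - (c • mono p m L₀ + d • mono p m L₁)) := by
  obtain ⟨x, hx, hb⟩ := FP_span r m s N z hN hz
  have : VV p r m s N ≤ Submodule.span (ZMod p) {mono p m L₀, mono p m L₁} := by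
    refine Submodule.span_mono ?_
    rintro f ⟨L, h1, h2, h3, h4, rfl⟩
    rcases h L h1 h2 h3 h4 with h | h
    · rw [h]; exact Set.mem_insert _ _
    · rw [h]; exact Set.mem_insert_of_mem _ rfl
  obtain ⟨c, d, rfl⟩ := Submodule.mem_span_pair.1 (this hx)
  exact ⟨c, d, hb⟩

theorem wt_zero : wt p 0 = 1 := by simp [wt]

theorem wt_one : wt p 1 = 1 + p := by simp [wt, Finset.sum_range_succ]

theorem wt_two : wt p 2 = 1 + p + p ^ 2 := by simp [wt, Finset.sum_range_succ]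

theorem wt_three : wt p 3 = 1 + p + p ^ 2 + p ^ 3 := by simp [wt, Finset.sum_range_succ]

/-- The monomials in internal degrees `< p ^ 3`. -/
theorem mono_small {s N : ℕ} (hN : N < p ^ 3) {L : List (ℕ × ℕ)} (h1 : L.length = 3)
    (h2 : ∀ x ∈ L, x.2 ≤ 1) (h3 : sd L = s) (h4 : ((nd p 0 L : ℕ) : ℤ) = N) :
    ∃ i j e₁ e₂ e₃ : ℕ, e₁ ≤ 1 ∧ e₂ ≤ 1 ∧ e₃ ≤ 1 ∧ L = [(i, e₁), (j, e₂), (0, e₃)] ∧
      s = 2 * i + 2 * j + e₁ + e₂ + e₃ ∧
      N = i * p + j * (p + p ^ 2) + e₁ + e₂ * (1 + p) + e₃ * (1 + p + p ^ 2) := by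
  match L, h1 with
  | [(i, e₁), (j, e₂), (k, e₃)], _ =>
    have a1 : e₁ ≤ 1 := h2 (i, e₁) (by simp)
    have a2 : e₂ ≤ 1 := h2 (j, e₂) (by simp)
    have a3 : e₃ ≤ 1 := h2 (k, e₃) (by simp)
    simp only [sd] at h3
    simp only [nd, zero_add, wt_zero, wt_one, Nat.reduceAdd, wt_two] at h4
    have h5 : (p * i + e₁) * 1 + ((p * j + e₂) * (1 + p) + ((p * k + e₃) * (1 + p + p ^ 2) + 0)) =
        N := by exact_mod_cast h4
    have hk : k = 0 := by
      by_contra hk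
      have : 1 ≤ k := by omega
      have h6 : p ^ 3 ≤ (p * k + e₃) * (1 + p + p ^ 2) := by
        calc p ^ 3 = (p * 1) * p ^ 2 := by ring
          _ ≤ (p * k + e₃) * (1 + p + p ^ 2) := by
            refine Nat.mul_le_mul ?_ (by omega)
            exact (Nat.mul_le_mul_left _ this).trans (by omega)
      omega
    subst hk
    refine ⟨i, j, e₁, e₂, e₃, a1, a2, a3, rfl, by omega, ?_⟩
    rw [← h5]
    ring

/-- The vanishing of `H(FP)` where there are no monomials. -/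
theorem AA_van (s N : ℕ) (hN : N < p ^ 3) (h : ¬ HasMon p s N) : (AA p 0).Ex s N := by
  refine ex_of_no_mono 3 0 s N ?_ ?_
  · rw [zero_add, wt_three]
    have : N < 1 + p + p ^ 2 + p ^ 3 := by omega
    exact_mod_cast this
  · intro L h1 h2 h3 h4
    obtain ⟨i, j, e₁, e₂, e₃, a1, a2, a3, -, h5, h6⟩ := mono_small hN h1 h2 h3 h4
    exact h ⟨i, j, e₁, e₂, e₃, a1, a2, a3, h5, h6⟩

end Vale.Agent.P257.E
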