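import Vale.Agent.P257.E.Mon
import Vale.Agent.P257.SG.Low

/-! `H^(6, 2 + 4 p + 2 p ^ 2)` of the kernel of the three operators vanishes. -/

namespace Vale.Agent.P257.E

open MvPolynomial Finset Vale.Agent.P257.Q.PC Vale.Agent.P257.X Vale.Agent.P257.X.Cpx
  Vale.Agent.P257.SG

variable {p : ℕ} [Fact p.Prime]

/-- Right multiplication by `H_(m+1)` is left multiplication, up to sign. -/
theorem comm_H {n m s : ℕ} {N : ℤ} {x : KP p} (hx : (AA p n).Z s N x) :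
    (AA p n).B (s + 1) (N + wt p m)
      ((-1 : ZMod p) ^ s • (x * (φ p 0)^[s] (Hc p m)) - hop p m x) := by
  have hx' := mem_AA.1 hx.1
  have hd : dd p s x = 0 := hx.2
  have hXs : ∀ r, (φ p 0)^[r] (X (0, m) : KP p) ∈ Co p r (wt p m) ∧
      ∀ k, pderiv ((0, k) : ℕ × ℕ) ((φ p 0)^[r] (X (0, m) : KP p)) =
        pderiv ((0, k) : ℕ × ℕ) (X (0, m) : KP p) := by
    intro r
    induction r with
    | zero => exact ⟨X_mem_Co m, fun k => rfl⟩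
    | succ r ih =>
      rw [Function.iterate_succ_apply']
      refine ⟨φ_mem (Nat.zero_le _) ih.1, fun k => ?_⟩
      rw [pderiv_φ, ih.2]
      by_cases h : m = k
      · rw [h, pderiv_X_self, map_one]
      · rw [pderiv_X_of_ne, map_zero]
        rw [Ne, Prod.mk.injEq]; tauto
  have e1 := dd_cup s 0 hx'.1.2 (X_mem_Co (p := p) m).2
  rw [hd, zero_mul, zero_add, dd_X, add_zero] at e1
  have e2 := dd_cup 0 s (X_mem_Co (p := p) m).2 hx'.1.2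
  rw [hd, Function.iterate_zero, id, id, mul_zero, smul_zero, add_zero, dd_X, zero_add, zero_add,
    Function.iterate_one] at e2
  refine ⟨x * (φ p 0)^[s] (X (0, m)) - X (0, m) * x, ?_, ?_⟩
  · have hmem : (φ p 0)^[s] (X (0, m) : KP p) - X (0, m) ∈ Co p s (wt p m) :=
      sub_mem (hXs s).1 (mem_Co.2 ⟨(X_mem_Co m).1, supp_mono (Nat.zero_le s) (X_mem_Co m).2⟩)
    have h1 : x * (φ p 0)^[s] (X (0, m)) - X (0, m) * x =
        x * ((φ p 0)^[s] (X (0, m) : KP p) - X (0, m)) := by ring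
    rw [h1]
    refine mem_AA.2 ⟨Co_mul hx'.1 hmem le_rfl, fun k hk => ?_⟩
    rw [pderiv_mul, hx'.2 k hk, map_sub, (hXs s).2 k, sub_self]
    simp
  · rw [AA_d, map_sub, e1, e2]
    rfl

/-- `H_(m+1)` in the second model. -/
noncomputable def hh (p : ℕ) : ℕ → KP p
  | 0 => X (1, 0)
  | 1 => X (1, 1) + X (1, 0) * X (0, 0)
  | _ => X (1, 2) + X (1, 1) * X (0, 0) ^ p + X (1, 0) * X (0, 1)

theorem Ψ_hh_zero : Ψ p (hh p 0) = Hc p 0 := by
  rw [hh, Ψ_X, if_neg (by norm_num), Hc, φ_X, if_neg (by norm_num), if_pos rfl]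
  simp only [Nat.antidiagonal_succ, Nat.antidiagonal_zero, Finset.map_singleton,
    Finset.cons_eq_insert]
  simp [tt]

theorem Ψ_hh_one : Ψ p (hh p 1) = Hc p 1 := by
  rw [hh, map_add, map_mul, Ψ_X, Ψ_X, Ψ_X, if_neg (by norm_num), if_neg (by norm_num),
    if_pos rfl, Hc, φ_X, if_neg (by norm_num), if_pos rfl]
  simp only [Nat.antidiagonal_succ, Nat.antidiagonal_zero, Finset.map_singleton,
    Finset.cons_eq_insert]
  simp [tt]
  ring

theorem Ψ_hh_two : Ψ p (hh p 2) = Hc p 2 := by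
  rw [hh]
  · rw [map_add, map_add, map_mul, map_mul, map_pow, Ψ_X, Ψ_X, Ψ_X, Ψ_X, Ψ_X,
      if_neg (by norm_num), if_neg (by norm_num),
      if_pos rfl, if_neg (by norm_num), if_pos rfl, Hc, φ_X, if_neg (by norm_num), if_pos rfl]
    simp only [Nat.antidiagonal_succ, Nat.antidiagonal_zero, Finset.map_singleton,
      Finset.cons_eq_insert]
    simp [tt]
    ring
  · norm_num
  · norm_num

/-- Left cup product with `H_(m+1)` in the second model. -/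
noncomputable def h2 (p m : ℕ) (x : KP p) : KP p := hh p m * ψ p 0 x

/-- Left cup product with `B_(m+1)` in the second model. -/
noncomputable def b2 (p m : ℕ) (x : KP p) : KP p :=
  gam p (hh p m) (ψ p 0 (hh p m)) * ψ p 0 (ψ p 0 x)

theorem Ψ_h2 {m : ℕ} (hm : Ψ p (hh p m) = Hc p m) (x : KP p) : Ψ p (h2 p m x) = hop p m (Ψ p x) := by
  rw [h2, map_mul, hm, Ψ_ψ, hop_apply]

theorem Ψ_b2 {m : ℕ} (hm : Ψ p (hh p m) = Hc p m) (x : KP p) : Ψ p (b2 p m x) = bop p m (Ψ p x) := by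
  have : Ψ p (gam p (hh p m) (ψ p 0 (hh p m))) = Bm p m := by
    rw [Bm, ← hm, ← Ψ_ψ]
    exact map_gam (Ψ p).toRingHom _ _
  rw [b2, map_mul, this, Ψ_ψ, Ψ_ψ, bop_apply]

theorem D_h2 (n m : ℕ) (x : KP p) : DD p n (h2 p m x) =
    DD p n (hh p m) * ψ p 0 x + h2 p m (DD p n x) := by
  rw [DD_apply, DD_apply, DD_apply, h2, h2, pderiv_mul, pderiv_ψ]

theorem D_b2 (n m : ℕ) (x : KP p) (h : DD p n (hh p m) = 0) :
    DD p n (b2 p m x) = b2 p m (DD p n x) := by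
  rw [DD_apply] at h ⊢
  rw [b2, pderiv_mul, derivation_gam (Fact.out : p.Prime), h, pderiv_ψ, h, pderiv_ψ, pderiv_ψ, b2,
    DD_apply]
  simp

theorem D_hh_zero (n : ℕ) : DD p n (hh p 0) = 0 := by
  rw [DD_apply, hh, pderiv_X_of_ne (by simp [Prod.ext_iff])]

theorem D1_hh_one : DD p 1 (hh p 1) = 0 := by
  rw [DD_apply, hh, map_add, pderiv_mul, pderiv_X_of_ne (by simp [Prod.ext_iff]),
    pderiv_X_of_ne (by simp [Prod.ext_iff]), pderiv_X_of_ne (by simp [Prod.ext_iff])]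
  simp

theorem D0_hh_one : DD p 0 (hh p 1) = hh p 0 := by
  rw [DD_apply, hh, hh, map_add, pderiv_mul, pderiv_X_of_ne (by simp [Prod.ext_iff]),
    pderiv_X_of_ne (by simp [Prod.ext_iff]), pderiv_X_self]
  simp

theorem D1_hh_two : DD p 1 (hh p 2) = hh p 0 := by
  rw [DD_apply, hh, hh]
  · rw [map_add, map_add, pderiv_mul, pderiv_mul, pderiv_pow,
      pderiv_X_of_ne (by simp [Prod.ext_iff]),
      pderiv_X_of_ne (by simp [Prod.ext_iff]), pderiv_X_of_ne (by simp [Prod.ext_iff]),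
      pderiv_X_of_ne (by simp [Prod.ext_iff]), pderiv_X_self]
    simp
  · norm_num
  · norm_num

theorem D0_hh_two : DD p 0 (hh p 2) = 0 := by
  rw [DD_apply, hh]
  · rw [map_add, map_add, pderiv_mul, pderiv_mul, pderiv_pow,
      pderiv_X_of_ne (by simp [Prod.ext_iff]),
      pderiv_X_of_ne (by simp [Prod.ext_iff]), pderiv_X_self,
      pderiv_X_of_ne (by simp [Prod.ext_iff]), pderiv_X_of_ne (by simp [Prod.ext_iff]),
      CharP.cast_eq_zero]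
    simp
  · norm_num
  · norm_num

theorem Z_Ψ {s : ℕ} {N : ℤ} {f : KP p} : (AA p 0).Z s N (Ψ p f) ↔ (FF p).Z s N f :=
  ⟨fun h => (iso.z_iff (Ψ_mem.1 h.1)).1 h, fun h => (iso.z_iff h.1).2 h⟩

theorem B_Ψ {s : ℕ} {N : ℤ} {f : KP p} : (AA p 0).B s N (Ψ p f) ↔ (FF p).B s N f := iso.b_iff

theorem pos_FF : Pos (FF p) := by
  intro s N f hf hN
  have h1 := (mem_FF.1 hf).1
  by_contra hf0
  obtain ⟨u, hu⟩ := (MvPolynomial.ne_zero_iff.1 hf0)
  have h2 := h1 hu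
  rw [Finsupp.weight_apply, Finsupp.sum] at h2
  have h3 : 0 ≤ ∑ x ∈ u.support, u x • W2 p x := by
    refine Finset.sum_nonneg fun x _ => ?_
    rw [nsmul_eq_mul]
    refine mul_nonneg (Int.natCast_nonneg _) ?_
    rw [W2]
    split_ifs
    · positivity
    · positivity
  omega

theorem FF_van (s N : ℕ) (hN : N < p ^ 3) (h : ¬ HasMon p s N) : (FF p).Ex s N :=
  iso.ex_iff.1 (AA_van s N hN h)

theorem B_D {n s : ℕ} {N : ℤ} {f : KP p} (hf : (FF p).B s N f) :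
    (FF p).B s (N - p * wt p n) (DD p n f) := by
  cases s with
  | zero =>
    have : f = 0 := hf
    rw [this, map_zero]; exact B.zero _ _
  | succ s =>
    obtain ⟨g, hg, rfl⟩ := hf
    exact ⟨DD p n g, (der2 n).mem _ _ _ hg, ((der2 n).comm _ _ _ hg).symm⟩

theorem Hc_Z (n m : ℕ) : (AA p n).Z 1 (wt p m) (Hc p m) := by
  have := hop_Z (m := m) (one_Z (p := p) n)
  rw [hop_apply, map_one, mul_one, zero_add, zero_add] at this
  exact this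

theorem hop_one (m : ℕ) : hop p m (1 : KP p) = Hc p m := by rw [hop_apply, map_one, mul_one]

/-- `B_1 B_2 H_2 H_1 = - B_1 H_1 B_2 H_2`. -/
theorem commA : (AA p 0).B 6 (2 + 3 * p + p ^ 2)
    (bop p 0 (bop p 1 (hop p 1 (hop p 0 1))) + mono p 0 [(1, 1), (1, 1)]) := by
  have h1 : (AA p 0).Z 3 (1 + p + p * (1 + p)) (bop p 1 (hop p 1 1)) := by
    have := bop_Z (m := 1) (hop_Z (m := 1) (one_Z (p := p) 0))
    rw [wt_one] at this
    convert this using 1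
    push_cast; ring
  have h2 := comm_H (m := 0) h1
  rw [wt_zero] at h2
  have h3 : (-1 : ZMod p) ^ 3 • (bop p 1 (hop p 1 1) * (φ p 0)^[3] (Hc p 0)) =
      - bop p 1 (hop p 1 (hop p 0 1)) := by
    rw [hop_one, hop_one, bop_apply, bop_apply, hop_apply, map_mul, map_mul]
    simp only [Function.iterate_succ_apply', Function.iterate_zero, id]
    have : (-1 : ZMod p) ^ 3 = -1 := by ring
    rw [this, neg_one_smul]
    ring
  rw [h3] at h2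
  have h4 := (bop_B (m := 0) h2).neg
  rw [map_sub, map_neg, wt_zero] at h4
  have e : mono p 0 [(1, 1), (1, 1)] = bop p 0 (hop p 0 (bop p 1 (hop p 1 1))) := rfl
  rw [e]
  convert h4 using 1
  · push_cast; ring
  · abel

/-- `B_1 H_2 H_1 = - B_1 H_1 H_2`. -/
theorem commB : (AA p 0).B 4 (2 + 2 * p)
    (bop p 0 (hop p 1 (hop p 0 1)) + mono p 0 [(1, 1), (0, 1)]) := by
  have h1 : (AA p 0).Z 1 (1 + p) (hop p 1 1) := by
    have := Hc_Z (p := p) 0 1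
    rw [wt_one] at this
    rw [hop_one]
    exact_mod_cast this
  have h2 := comm_H (m := 0) h1
  rw [wt_zero] at h2
  have h3 : (-1 : ZMod p) ^ 1 • (hop p 1 1 * (φ p 0)^[1] (Hc p 0)) =
      - hop p 1 (hop p 0 1) := by
    rw [hop_one, hop_one, hop_apply, Function.iterate_one, pow_one, neg_one_smul]
  rw [h3] at h2
  have h4 := (bop_B (m := 0) h2).neg
  rw [map_sub, map_neg, wt_zero] at h4
  have e : mono p 0 [(1, 1), (0, 1)] = bop p 0 (hop p 0 (hop p 1 1)) := rfl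
  rw [e]
  convert h4 using 1
  · push_cast; ring
  · abel

/-- `B_2 H_2 H_1 = - H_1 B_2 H_2`. -/
theorem commC : (AA p 0).B 4 (2 + 2 * p + p ^ 2)
    (bop p 1 (hop p 1 (hop p 0 1)) + mono p 0 [(0, 1), (1, 1), (0, 0)]) := by
  have h1 : (AA p 0).Z 3 (1 + p + p * (1 + p)) (bop p 1 (hop p 1 1)) := by
    have := bop_Z (m := 1) (hop_Z (m := 1) (one_Z (p := p) 0))
    rw [wt_one] at this
    convert this using 1
    push_cast; ring
  have h2 := comm_H (m := 0) h1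
  rw [wt_zero] at h2
  have h3 : (-1 : ZMod p) ^ 3 • (bop p 1 (hop p 1 1) * (φ p 0)^[3] (Hc p 0)) =
      - bop p 1 (hop p 1 (hop p 0 1)) := by
    rw [hop_one, hop_one, bop_apply, bop_apply, hop_apply, map_mul, map_mul]
    simp only [Function.iterate_succ_apply', Function.iterate_zero, id]
    have : (-1 : ZMod p) ^ 3 = -1 := by ring
    rw [this, neg_one_smul]
    ring
  rw [h3] at h2
  have h4 := h2.neg
  have e : mono p 0 [(0, 1), (1, 1), (0, 0)] = hop p 0 (bop p 1 (hop p 1 1)) := rfl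
  rw [e]
  convert h4 using 1
  · push_cast; ring
  · abel

theorem lt_p3 (hp : 5 ≤ p) {b c : ℕ} (hb : b < 5) (hc : c < 5) : 2 + b * p + c * p ^ 2 < p ^ 3 := by
  have q1 : 5 * p ≤ p ^ 2 := by nlinarith
  have q2 : 5 * p ^ 2 ≤ p ^ 3 := by nlinarith
  have : b * p ≤ 4 * p := Nat.mul_le_mul_right _ (by omega)
  have : c * p ^ 2 ≤ 4 * p ^ 2 := Nat.mul_le_mul_right _ (by omega)
  nlinarith

theorem lt_wt {N : ℕ} (h : N < p ^ 3) : ((N : ℕ) : ℤ) < wt p (0 + 3) := by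
  rw [zero_add, wt_three]
  have : N < 1 + p + p ^ 2 + p ^ 3 := by omega
  exact_mod_cast this

/-- The digits of the monomials. -/
theorem lists (hp : 5 ≤ p) {s b c : ℕ} (hs : s ≤ 6) (hb : b < 5) (hc : c < 5)
    {L : List (ℕ × ℕ)} (h1 : L.length = 3)
    (h2 : ∀ x ∈ L, x.2 ≤ 1) (h3 : sd L = s)
    (h4 : ((nd p 0 L : ℕ) : ℤ) = ((2 + b * p + c * p ^ 2 : ℕ) : ℤ)) :
    ∃ i j e₁ e₂ e₃ : ℕ, e₁ ≤ 1 ∧ e₂ ≤ 1 ∧ e₃ ≤ 1 ∧ L = [(i, e₁), (j, e₂), (0, e₃)] ∧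
      s = 2 * i + 2 * j + e₁ + e₂ + e₃ ∧ 2 = e₁ + e₂ + e₃ ∧ b = i + j + e₂ + e₃ ∧ c = j + e₃ := by
  obtain ⟨i, j, e₁, e₂, e₃, a1, a2, a3, rfl, h5, h6⟩ := mono_small (lt_p3 hp hb hc) h1 h2 h3 h4
  have hN' : 2 + b * p + c * p ^ 2 =
      (e₁ + e₂ + e₃) + (i + j + e₂ + e₃) * p + (j + e₃) * p ^ 2 := by rw [h6]; ring
  obtain ⟨k0, k1, k2⟩ := digits3 (by omega) (by omega) (by omega) (by omega) hN'
  exact ⟨i, j, e₁, e₂, e₃, a1, a2, a3, rfl, h5, k0, k1, k2⟩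

theorem hA (hp : 5 ≤ p) (z : KP p) (hz : (FF p).Z 6 (2 + 4 * p + 2 * p ^ 2) z)
    (hD : DD p 1 z = 0) : (FF p).B 6 (2 + 4 * p + 2 * p ^ 2) z := by
  have hN : ((2 + 4 * p + 2 * p ^ 2 : ℕ) : ℤ) = 2 + 4 * p + 2 * p ^ 2 := by push_cast; ring
  obtain ⟨c, hc⟩ := one_mono 3 0 6 ((2 + 4 * p + 2 * p ^ 2 : ℕ) : ℤ)
    (lt_wt (lt_p3 hp (by norm_num) (by norm_num))) [(1, 0), (1, 1), (0, 1)] (by
      intro L h1 h2 h3 h4
      obtain ⟨i, j, e₁, e₂, e₃, a1, a2, a3, rfl, h5, h6, h7, h8⟩ :=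
        lists hp (by norm_num) (by norm_num) (by norm_num) h1 h2 h3 h4
      obtain rfl : i = 1 := by omega
      obtain rfl : j = 1 := by omega
      obtain rfl : e₁ = 0 := by omega
      obtain rfl : e₂ = 1 := by omega
      obtain rfl : e₃ = 1 := by omega
      rfl) (z := Ψ p z) (by rw [hN]; exact Z_Ψ.2 hz)
  rw [hN] at hc
  have e1 : mono p 0 [(1, 0), (1, 1), (0, 1)] = Ψ p (b2 p 0 (b2 p 1 (h2 p 1 (h2 p 2 1)))) := by
    rw [Ψ_b2 Ψ_hh_zero, Ψ_b2 Ψ_hh_one, Ψ_h2 Ψ_hh_one, Ψ_h2 Ψ_hh_two, map_one]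
    rfl
  rw [e1, ← map_smul, ← map_sub] at hc
  have hc' := B_Ψ.1 hc
  have h1 := B_D (n := 1) hc'
  have e2 : DD p 1 (b2 p 0 (b2 p 1 (h2 p 1 (h2 p 2 1)))) = b2 p 0 (b2 p 1 (h2 p 1 (h2 p 0 1))) := by
    rw [D_b2 _ _ _ (D_hh_zero 1), D_b2 _ _ _ D1_hh_one, D_h2, D1_hh_one, zero_mul, zero_add, D_h2,
      D1_hh_two]
    congr 3
    rw [h2, h2, DD_apply, Derivation.map_one_eq_zero]
    simp
  have e3 : DD p 1 (z - c • b2 p 0 (b2 p 1 (h2 p 1 (h2 p 2 1)))) =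
      - (c • b2 p 0 (b2 p 1 (h2 p 1 (h2 p 0 1)))) := by
    rw [map_sub, hD, zero_sub, ← e2, DD_apply, DD_apply, Derivation.map_smul]
  rw [e3] at h1
  have h2' := (B_Ψ.2 h1).neg
  rw [map_neg, neg_neg, map_smul, Ψ_b2 Ψ_hh_zero, Ψ_b2 Ψ_hh_one, Ψ_h2 Ψ_hh_one, Ψ_h2 Ψ_hh_zero,
    map_one, show (2 + 4 * p + 2 * p ^ 2 - p * wt p 1 : ℤ) = 2 + 3 * p + p ^ 2 by
      rw [wt_one]; push_cast; ring] at h2'
  have h3 := (smul_B c (commA (p := p))).sub h2'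
  rw [smul_add, add_sub_cancel_left] at h3
  have h4 := mono_ne (p := p) [(1, 1), (1, 1)] 0 c (by simp) (by
    have : ((nd p 0 [(1, 1), (1, 1)] : ℕ) : ℤ) = 2 + 3 * p + p ^ 2 := by
      simp only [nd, wt_zero, zero_add, wt_one]
      push_cast
      ring
    rw [this]
    exact h3)
  rw [h4, zero_smul, sub_zero] at hc'
  exact hc'

theorem hB (hp : 5 ≤ p) (z : KP p) (hz : (FF p).Z 4 (2 + 3 * p + p ^ 2) z)
    (hD : DD p 1 z = 0) : (FF p).B 4 (2 + 3 * p + p ^ 2) z := by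
  have hN : ((2 + 3 * p + 1 * p ^ 2 : ℕ) : ℤ) = 2 + 3 * p + p ^ 2 := by push_cast; ring
  obtain ⟨c, hc⟩ := one_mono 3 0 4 ((2 + 3 * p + 1 * p ^ 2 : ℕ) : ℤ)
    (lt_wt (lt_p3 hp (by norm_num) (by norm_num))) [(1, 0), (0, 1), (0, 1)] (by
      intro L h1 h2 h3 h4
      obtain ⟨i, j, e₁, e₂, e₃, a1, a2, a3, rfl, h5, h6, h7, h8⟩ :=
        lists hp (by norm_num) (by norm_num) (by norm_num) h1 h2 h3 h4
      obtain rfl : i = 1 := by omega
      obtain rfl : j = 0 := by omega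
      obtain rfl : e₁ = 0 := by omega
      obtain rfl : e₂ = 1 := by omega
      obtain rfl : e₃ = 1 := by omega
      rfl) (z := Ψ p z) (by rw [hN]; exact Z_Ψ.2 hz)
  rw [hN] at hc
  have e1 : mono p 0 [(1, 0), (0, 1), (0, 1)] = Ψ p (b2 p 0 (h2 p 1 (h2 p 2 1))) := by
    rw [Ψ_b2 Ψ_hh_zero, Ψ_h2 Ψ_hh_one, Ψ_h2 Ψ_hh_two, map_one]
    rfl
  rw [e1, ← map_smul, ← map_sub] at hc
  have hc' := B_Ψ.1 hc
  have h1 := B_D (n := 1) hc'
  have e2 : DD p 1 (b2 p 0 (h2 p 1 (h2 p 2 1))) = b2 p 0 (h2 p 1 (h2 p 0 1)) := by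
    rw [D_b2 _ _ _ (D_hh_zero 1), D_h2, D1_hh_one, zero_mul, zero_add, D_h2, D1_hh_two]
    congr 2
    rw [h2, h2, DD_apply, Derivation.map_one_eq_zero]
    simp
  have e3 : DD p 1 (z - c • b2 p 0 (h2 p 1 (h2 p 2 1))) =
      - (c • b2 p 0 (h2 p 1 (h2 p 0 1))) := by
    rw [map_sub, hD, zero_sub, ← e2, DD_apply, DD_apply, Derivation.map_smul]
  rw [e3] at h1
  have h2' := (B_Ψ.2 h1).neg
  rw [map_neg, neg_neg, map_smul, Ψ_b2 Ψ_hh_zero, Ψ_h2 Ψ_hh_one, Ψ_h2 Ψ_hh_zero,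
    map_one, show (2 + 3 * p + p ^ 2 - p * wt p 1 : ℤ) = 2 + 2 * p by
      rw [wt_one]; push_cast; ring] at h2'
  have h3 := (smul_B c (commB (p := p))).sub h2'
  rw [smul_add, add_sub_cancel_left] at h3
  have h4 := mono_ne (p := p) [(1, 1), (0, 1)] 0 c (by simp) (by
    have : ((nd p 0 [(1, 1), (0, 1)] : ℕ) : ℤ) = 2 + 2 * p := by
      simp only [nd, wt_zero, zero_add, wt_one]
      push_cast
      ring
    rw [this]
    exact h3)
  rw [h4, zero_smul, sub_zero] at hc'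
  exact hc'

theorem hC (hp : 5 ≤ p) (z : KP p) (hz : (FF p).Z 4 (2 + 2 * p + p ^ 2) z) :
    ∃ z₁ z₂, (FF p).Z 4 (2 + 3 * p + 2 * p ^ 2) z₁ ∧ (FF p).Z 4 (2 + 3 * p + p ^ 2) z₂ ∧
      (FF p).B 4 (2 + 2 * p + p ^ 2) (z - DD p 1 z₁ - DD p 0 z₂) := by
  have hN : ((2 + 2 * p + 1 * p ^ 2 : ℕ) : ℤ) = 2 + 2 * p + p ^ 2 := by push_cast; ring
  obtain ⟨c, d, hc⟩ := two_mono 3 0 4 ((2 + 2 * p + 1 * p ^ 2 : ℕ) : ℤ)
    (lt_wt (lt_p3 hp (by norm_num) (by norm_num))) [(0, 1), (1, 1), (0, 0)]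
    [(1, 1), (0, 0), (0, 1)] (by
      intro L h1 h2 h3 h4
      obtain ⟨i, j, e₁, e₂, e₃, a1, a2, a3, rfl, h5, h6, h7, h8⟩ :=
        lists hp (by norm_num) (by norm_num) (by norm_num) h1 h2 h3 h4
      rcases Nat.le_one_iff_eq_zero_or_eq_one.1 a3 with h0 | h0
      · left
        obtain rfl : i = 0 := by omega
        obtain rfl : j = 1 := by omega
        obtain rfl : e₁ = 1 := by omega
        obtain rfl : e₂ = 1 := by omega
        obtain rfl : e₃ = 0 := by omega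
        rfl
      · right
        obtain rfl : i = 1 := by omega
        obtain rfl : j = 0 := by omega
        obtain rfl : e₁ = 1 := by omega
        obtain rfl : e₂ = 0 := by omega
        obtain rfl : e₃ = 1 := by omega
        rfl) (z := Ψ p z) (by rw [hN]; exact Z_Ψ.2 hz)
  rw [hN] at hc
  have hz1 : (FF p).Z 4 (2 + 3 * p + 2 * p ^ 2) ((-c) • b2 p 1 (h2 p 1 (h2 p 2 1))) := by
    rw [← Z_Ψ, map_smul]
    refine smul_Z _ ?_
    rw [Ψ_b2 Ψ_hh_one, Ψ_h2 Ψ_hh_one, Ψ_h2 Ψ_hh_two, map_one]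
    have := mono_Z (p := p) 0 [(0, 0), (1, 1), (0, 1)] 0
    simp only [nd, wt_zero, zero_add, wt_one, Nat.reduceAdd, wt_two] at this
    have e : (2 + 3 * p + 2 * p ^ 2 : ℤ) = ((p * 0 + 0) * 1 + ((p * 1 + 1) * (1 + p) +
        ((p * 0 + 1) * (1 + p + p ^ 2) + 0)) : ℕ) := by push_cast; ring
    rw [e]
    exact this
  have hz2 : (FF p).Z 4 (2 + 3 * p + p ^ 2) (d • b2 p 0 (h2 p 1 (h2 p 2 1))) := by
    rw [← Z_Ψ, map_smul]
    refine smul_Z _ ?_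
    rw [Ψ_b2 Ψ_hh_zero, Ψ_h2 Ψ_hh_one, Ψ_h2 Ψ_hh_two, map_one]
    have := mono_Z (p := p) 0 [(1, 0), (0, 1), (0, 1)] 0
    simp only [nd, wt_zero, zero_add, wt_one, Nat.reduceAdd, wt_two] at this
    have e : (2 + 3 * p + p ^ 2 : ℤ) = ((p * 1 + 0) * 1 + ((p * 0 + 1) * (1 + p) +
        ((p * 0 + 1) * (1 + p + p ^ 2) + 0)) : ℕ) := by push_cast; ring
    rw [e]
    exact this
  refine ⟨_, _, hz1, hz2, ?_⟩
  have e1 : DD p 1 ((-c) • b2 p 1 (h2 p 1 (h2 p 2 1))) = (-c) • b2 p 1 (h2 p 1 (h2 p 0 1)) := by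
    rw [DD_apply, Derivation.map_smul, ← DD_apply, D_b2 _ _ _ D1_hh_one, D_h2, D1_hh_one,
      zero_mul, zero_add, D_h2, D1_hh_two]
    congr 3
    rw [h2, h2, DD_apply, Derivation.map_one_eq_zero]
    simp
  have e2 : DD p 0 (d • b2 p 0 (h2 p 1 (h2 p 2 1))) = d • b2 p 0 (h2 p 0 (h2 p 2 1)) := by
    rw [DD_apply, Derivation.map_smul, ← DD_apply, D_b2 _ _ _ (D_hh_zero 0), D_h2, D0_hh_one]
    have : DD p 0 (h2 p 2 1) = 0 := by
      rw [D_h2, D0_hh_two, zero_mul, zero_add, h2, DD_apply, Derivation.map_one_eq_zero]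
      simp
    have h0 : h2 p 1 (0 : KP p) = 0 := by rw [h2, map_zero, mul_zero]
    rw [this, h0, add_zero]
    rfl
  have e4 : Ψ p (z - (-c) • b2 p 1 (h2 p 1 (h2 p 0 1)) - d • b2 p 0 (h2 p 0 (h2 p 2 1))) =
      Ψ p z + c • bop p 1 (hop p 1 (hop p 0 1)) - d • bop p 0 (hop p 0 (hop p 2 1)) := by
    rw [map_sub, map_sub, map_smul, map_smul, Ψ_b2 Ψ_hh_one, Ψ_h2 Ψ_hh_one,
      Ψ_h2 Ψ_hh_zero, Ψ_b2 Ψ_hh_zero, Ψ_h2 Ψ_hh_zero, Ψ_h2 Ψ_hh_two, map_one (Ψ p), neg_smul,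
      sub_neg_eq_add]
  rw [e1, e2, ← B_Ψ, e4]
  have h3 := hc.add (smul_B c (commC (p := p)))
  have e3 : mono p 0 [(1, 1), (0, 0), (0, 1)] = bop p 0 (hop p 0 (hop p 2 1)) := rfl
  rw [e3] at h3
  have e5 : Ψ p z + c • bop p 1 (hop p 1 (hop p 0 1)) - d • bop p 0 (hop p 0 (hop p 2 1)) =
      Ψ p z - (c • mono p 0 [(0, 1), (1, 1), (0, 0)] + d • bop p 0 (hop p 0 (hop p 2 1))) +
      c • (bop p 1 (hop p 1 (hop p 0 1)) + mono p 0 [(0, 1), (1, 1), (0, 0)]) := by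
    rw [smul_add]
    abel
  rw [e5]
  exact h3

/-- `H^(6, 2 + 4 p + 2 p ^ 2)` of the kernel of the three operators vanishes. -/
theorem S3_ex (hp : 5 ≤ p) : ((K1 p).Ker dW').Ex 6 (2 + 4 * p + 2 * p ^ 2) :=
  S3count hp pos_FF derZ dY' dW' derY.mem derY.comm (fun _ _ f _ => pderiv_swap _ _ f)
    (fun s N _ hN h => FF_van s N hN h) (hA hp) (hB hp) (hC hp)

end Vale.Agent.P257.E
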