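import Vale.Agent.P257.X.Abs

/-! Abstract part of the proof of `Ext_P^(6, 2 + 4 p + 2 p ^ 2) = 0`. -/

namespace Vale.Agent.P257.E

open Vale.Agent.P257.X Vale.Agent.P257.X.Cpx

variable {A : Type*} [AddCommGroup A] {C : Cpx A}

/-- Connective internal degrees. -/
def Pos (C : Cpx A) : Prop := ∀ s N, ∀ f ∈ C.K s N, N < 0 → f = 0

theorem Pos.ker {p : ℕ} {e : ℤ} {D : A →+ A} (h : Der C p e D) (hC : Pos C) : Pos (C.Ker h) :=
  fun s N f hf hN => hC s N f hf.1 hN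

/-- `D` is onto in small degrees. -/
theorem surj {p : ℕ} {e : ℤ} {D : A →+ A} (h : Der C p e D) (hp : 1 ≤ p) (hC : Pos C) {s N}
    (hN : N < (p - 1 : ℤ) * e) {f : A} (hf : f ∈ C.K s N) : ∃ g ∈ C.K s (N + e), D g = f := by
  refine h.ex1 s N f hf (hC s _ _ (h.iter_mem (p - 1) hf) ?_)
  have : ((p - 1 : ℕ) : ℤ) = (p - 1 : ℤ) := by push_cast [Nat.cast_sub hp]; ring
  rw [this]; linarith

/-- The step lemma. -/
theorem step {p : ℕ} {e : ℤ} {D : A →+ A} (h : Der C p e D) (hp : 1 ≤ p) {s N}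
    (h1 : ∀ z, C.Z s N z → D z = 0 → C.B s N z)
    (h2 : ∀ s', s = s' + 1 → ∀ u, C.Z s' (N - e) u → D^[p - 1] u = 0 →
      ∃ v, C.Z s' N v ∧ C.B s' (N - e) (u - D v))
    (h3 : ∀ s', s = s' + 2 → (C.Ker h).Ex s' (N - p * e)) : (C.Ker h).Ex s N := by
  intro f hf
  have hfK : f ∈ C.K s N := hf.1.1
  have hfD : D f = 0 := hf.1.2
  have hfd : C.d s f = 0 := hf.2
  have hb := h1 f ⟨hfK, hfd⟩ hfD
  cases s with
  | zero => exact hb
  | succ s =>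
    obtain ⟨g, hg, rfl⟩ := hb
    have hz : C.Z s (N - e) (D g) := ⟨h.mem _ _ _ hg, by rw [← h.comm _ _ _ hg, hfD]⟩
    have hw : D^[p - 1] (D g) = 0 := by
      rw [iter_pred' D hp]
      exact h.pow _ _ _ hg
    obtain ⟨v, hv, hb⟩ := h2 s rfl _ hz hw
    have hg1 : g - v ∈ C.K s N := sub_mem hg hv.1
    have hdg1 : C.d s (g - v) = C.d s g := by rw [map_sub, hv.2, sub_zero]
    have hb' : C.B s (N - e) (D (g - v)) := by rwa [map_sub]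
    cases s with
    | zero =>
      refine ⟨g - v, (mem_ker h).2 ⟨hg1, hb'⟩, hdg1⟩
    | succ s =>
      obtain ⟨k, hk, hk'⟩ := hb'
      have hm := h.iter_mem (p - 1) hk
      have hpe : ((p - 1 : ℕ) : ℤ) = (p - 1 : ℤ) := by push_cast [Nat.cast_sub hp]; ring
      rw [hpe, show N - e - (p - 1 : ℤ) * e = N - p * e by ring] at hm
      have hz : (C.Ker h).Z s (N - p * e) (D^[p - 1] k) := by
        refine ⟨⟨hm, ?_⟩, ?_⟩
        · change D (D^[p - 1] k) = 0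
          rw [iter_pred D hp]
          exact h.pow _ _ _ hk
        · change C.d s _ = 0
          rw [← h.iter_comm _ hk, hk', iter_pred' D hp]
          exact h.pow _ _ _ hg1
      have hb := h3 s rfl _ hz
      have key : ∃ k' ∈ C.K s N, ∃ k'' ∈ C.K s (N - e), C.d s k'' = D (g - v) ∧ D k' = k'' := by
        cases s with
        | zero =>
          obtain ⟨k', hk'1, hk'2⟩ := h.ex1 _ _ _ hk hb
          rw [sub_add_cancel] at hk'1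
          exact ⟨k', hk'1, k, hk, hk', hk'2⟩
        | succ s =>
          obtain ⟨r, hr, hr'⟩ := hb
          obtain ⟨r', hr1, hr2⟩ := h.ex2 _ _ _ hr.1 hr.2
          rw [show N - p * e + (p - 1 : ℤ) * e = N - e by ring] at hr1
          have hk2 : k - C.d s r' ∈ C.K (s + 1) (N - e) := sub_mem hk (C.d_mem _ _ _ hr1)
          obtain ⟨k', hk'1, hk'2⟩ := h.ex1 _ _ _ hk2 (by
            change C.d s r = _ at hr'
            rw [iter_sub, h.iter_comm _ hr1, hr2, hr', sub_self])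
          rw [sub_add_cancel] at hk'1
          refine ⟨k', hk'1, _, hk2, ?_, hk'2⟩
          rw [map_sub, C.d_d _ _ _ hr1, sub_zero, hk']
      obtain ⟨k', hk1, k'', hk2, hk3, hk4⟩ := key
      refine ⟨g - v - C.d s k', (mem_ker h).2 ⟨sub_mem hg1 (C.d_mem _ _ _ hk1), ?_⟩, ?_⟩
      · rw [map_sub, h.comm _ _ _ hk1, hk4, hk3, sub_self]
      · change C.d (s + 1) _ = _
        rw [map_sub, C.d_d _ _ _ hk1, sub_zero, hdg1]

/-- The third condition is void in small degrees. -/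
theorem ex_neg {p : ℕ} {e : ℤ} {D : A →+ A} (h : Der C p e D) (hC : Pos C) {s N}
    (hN : N < 0) : (C.Ker h).Ex s N := by
  intro f hf
  rw [hC s N f hf.1.1 hN]
  exact B.zero s N

/-- The abstract form of the proof of `H^(6, 2 + 4 p + 2 p ^ 2)(k) = 0`. -/
theorem S3abs {p : ℕ} (hp : 5 ≤ p) {F : Cpx A} (hF : Pos F) {Dx Dy Dw : A →+ A}
    (hx : Der F p (p + p ^ 2) Dx) (hy : Der (F.Ker hx) p p Dy)
    (hw : Der ((F.Ker hx).Ker hy) p (p ^ 2) Dw)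
    (ymem : ∀ s N, ∀ f ∈ F.K s N, Dy f ∈ F.K s (N - p))
    (ycomm : ∀ s N, ∀ f ∈ F.K s N, Dy (F.d s f) = F.d s (Dy f))
    (xy : ∀ s N, ∀ f ∈ F.K s N, Dx (Dy f) = Dy (Dx f))
    -- counting
    (c1 : F.Ex 5 (2 + 3 * p + p ^ 2)) (c2 : F.Ex 5 (2 + 3 * p + 2 * p ^ 2))
    (c3 : F.Ex 3 (2 + 2 * p)) (c4 : (F.Ker hx).Ex 5 (2 + 4 * p + p ^ 2))
    (c5 : ((F.Ker hx).Ker hy).Ex 4 (2 + 4 * p + p ^ 2))
    (c6 : ((F.Ker hx).Ker hy).Ex 3 (2 + 4 * p))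
    -- the ring `H(F)`
    (hA : ∀ z, F.Z 6 (2 + 4 * p + 2 * p ^ 2) z → Dx z = 0 → F.B 6 (2 + 4 * p + 2 * p ^ 2) z)
    (hB : ∀ z, F.Z 4 (2 + 3 * p + p ^ 2) z → Dx z = 0 → F.B 4 (2 + 3 * p + p ^ 2) z)
    (hC : ∀ z, F.Z 4 (2 + 2 * p + p ^ 2) z → ∃ z₁ z₂, F.Z 4 (2 + 3 * p + 2 * p ^ 2) z₁ ∧
      F.Z 4 (2 + 3 * p + p ^ 2) z₂ ∧ F.B 4 (2 + 2 * p + p ^ 2) (z - Dx z₁ - Dy z₂)) :
    (((F.Ker hx).Ker hy).Ker hw).Ex 6 (2 + 4 * p + 2 * p ^ 2) := by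
  have hp0 : (5 : ℤ) ≤ p := by exact_mod_cast hp
  have hp1 : 1 ≤ p := by omega
  have hK2 : Pos (F.Ker hx) := hF.ker hx
  have hK1 : Pos ((F.Ker hx).Ker hy) := hK2.ker hy
  have q1 : (5 : ℤ) * p ≤ p ^ 2 := by nlinarith
  have q2 : (5 : ℤ) * p ^ 2 ≤ p ^ 3 := by nlinarith
  -- `H^6(K2)`
  have e1 : (F.Ker hx).Ex 6 (2 + 4 * p + 2 * p ^ 2) := by
    refine step hx hp1 hA ?_ ?_
    · rintro s' hs u hu -
      obtain rfl : s' = 5 := by omega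
      refine ⟨0, Z.zero _ _, ?_⟩
      rw [map_zero, sub_zero]
      rw [show (2 + 4 * p + 2 * p ^ 2 - (p + p ^ 2) : ℤ) = 2 + 3 * p + p ^ 2 by ring] at hu ⊢
      exact c1 u hu
    · intro s' _
      exact ex_neg hx hF (by nlinarith)
  -- `H^4(K2)`
  have e2 : (F.Ker hx).Ex 4 (2 + 3 * p + p ^ 2) := by
    refine step hx hp1 hB ?_ ?_
    · rintro s' hs u hu -
      obtain rfl : s' = 3 := by omega
      refine ⟨0, Z.zero _ _, ?_⟩
      rw [map_zero, sub_zero]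
      rw [show (2 + 3 * p + p ^ 2 - (p + p ^ 2) : ℤ) = 2 + 2 * p by ring] at hu ⊢
      exact c3 u hu
    · intro s' _
      exact ex_neg hx hF (by nlinarith)
  -- `Dy` is onto
  have e3 : ∀ u, (F.Ker hx).Z 5 (2 + 3 * p + 2 * p ^ 2) u →
      ∃ v, (F.Ker hx).Z 5 (2 + 4 * p + 2 * p ^ 2) v ∧
        (F.Ker hx).B 5 (2 + 3 * p + 2 * p ^ 2) (u - Dy v) := by
    intro u hu
    have huD : Dx u = 0 := hu.1.2
    obtain ⟨Y, hY, rfl⟩ := c2 u ⟨hu.1.1, hu.2⟩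
    have hz : F.Z 4 (2 + 2 * p + p ^ 2) (Dx Y) := by
      refine ⟨?_, ?_⟩
      · have := hx.mem _ _ _ hY
        rwa [show (2 + 3 * p + 2 * p ^ 2 - (p + p ^ 2) : ℤ) = 2 + 2 * p + p ^ 2 by ring] at this
      · rw [← hx.comm _ _ _ hY, huD]
    obtain ⟨z₁, z₂, hz₁, hz₂, V, hV, hV'⟩ := hC _ hz
    obtain ⟨Y2, hY2, hY2'⟩ := surj hx hp1 hF (by nlinarith) hz₂.1
    rw [show (2 + 3 * p + p ^ 2 + (p + p ^ 2) : ℤ) = 2 + 4 * p + 2 * p ^ 2 by ring] at hY2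
    obtain ⟨V', hV1, hV2⟩ := surj hx hp1 hF (by nlinarith) hV
    rw [show (2 + 2 * p + p ^ 2 + (p + p ^ 2) : ℤ) = 2 + 3 * p + 2 * p ^ 2 by ring] at hV1
    have hDyY2 : Dy Y2 ∈ F.K 4 (2 + 3 * p + 2 * p ^ 2) := by
      have := ymem _ _ _ hY2
      rwa [show (2 + 4 * p + 2 * p ^ 2 - p : ℤ) = 2 + 3 * p + 2 * p ^ 2 by ring] at this
    refine ⟨F.d 4 Y2, ⟨⟨F.d_mem _ _ _ hY2, ?_⟩, F.d_d _ _ _ hY2⟩, Y - z₁ - Dy Y2 - F.d 3 V',
      (mem_ker hx).2 ⟨sub_mem (sub_mem (sub_mem hY hz₁.1) hDyY2) (F.d_mem _ _ _ hV1), ?_⟩, ?_⟩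
    · change Dx (F.d 4 Y2) = 0
      rw [hx.comm _ _ _ hY2, hY2', hz₂.2]
    · rw [map_sub, map_sub, map_sub, xy _ _ _ hY2, hY2', hx.comm _ _ _ hV1, hV2, hV', sub_self]
    · change F.d 4 _ = _
      rw [map_sub, map_sub, map_sub, F.d_d _ _ _ hV1, hz₁.2, ycomm _ _ _ hY2, sub_zero, sub_zero]
  -- `H^6(K1)`
  have e4 : ((F.Ker hx).Ker hy).Ex 6 (2 + 4 * p + 2 * p ^ 2) := by
    refine step hy hp1 (fun z hz _ => e1 z hz) ?_ ?_
    · rintro s' hs u hu -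
      obtain rfl : s' = 5 := by omega
      rw [show (2 + 4 * p + 2 * p ^ 2 - p : ℤ) = 2 + 3 * p + 2 * p ^ 2 by ring] at hu ⊢
      exact e3 u hu
    · intro s' hs
      obtain rfl : s' = 4 := by omega
      rw [show (2 + 4 * p + 2 * p ^ 2 - p * p : ℤ) = 2 + 4 * p + p ^ 2 by ring]
      exact c5
  -- `H^5(K1)`
  have e5 : ((F.Ker hx).Ker hy).Ex 5 (2 + 4 * p + p ^ 2) := by
    refine step hy hp1 (fun z hz _ => c4 z hz) ?_ ?_
    · rintro s' hs u hu -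
      obtain rfl : s' = 4 := by omega
      refine ⟨0, Z.zero _ _, ?_⟩
      rw [map_zero, sub_zero]
      rw [show (2 + 4 * p + p ^ 2 - p : ℤ) = 2 + 3 * p + p ^ 2 by ring] at hu ⊢
      exact e2 u hu
    · intro s' hs
      obtain rfl : s' = 3 := by omega
      rw [show (2 + 4 * p + p ^ 2 - p * p : ℤ) = 2 + 4 * p by ring]
      exact c6
  refine step hw hp1 (fun z hz _ => e4 z hz) ?_ ?_
  · rintro s' hs u hu -
    obtain rfl : s' = 5 := by omega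
    refine ⟨0, Z.zero _ _, ?_⟩
    rw [map_zero, sub_zero]
    rw [show (2 + 4 * p + 2 * p ^ 2 - p ^ 2 : ℤ) = 2 + 4 * p + p ^ 2 by ring] at hu ⊢
    exact e5 u hu
  · intro s' _
    exact ex_neg hw hK1 (by nlinarith)

end Vale.Agent.P257.E
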