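import Vale.Agent.P257.E.S3
import Vale.Agent.P257.SG.Bridge

/-! The small group `S3`. -/

namespace Vale.Agent.P257.E

open Vale.Agent.P257.Q.PC Vale.Agent.P257.X Vale.Agent.P257.SG

/-- `Ext_P^(6, 2 + 4 p + 2 p ^ 2) = 0`. -/
theorem S3 {p : ℕ} [Fact p.Prime] (hp : 5 ≤ p) : Van p 6 (2 + 4 * p + 2 * p ^ 2) := by
  have h := lt_p3 hp (b := 4) (c := 2) (by norm_num) (by norm_num)
  have hN : ((2 + 4 * p + 2 * p ^ 2 : ℕ) : ℤ) < p ^ 3 := by exact_mod_cast h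
  rw [van_iff' hN]
  have h2 := S3_ex (p := p) hp
  have e : ((2 + 4 * p + 2 * p ^ 2 : ℕ) : ℤ) = 2 + 4 * p + 2 * p ^ 2 := by push_cast; ring
  rw [e]
  exact h2

end Vale.Agent.P257.E
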