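import Vale.Agent.P257.E.FP

/-! The structure of the cohomology with coefficients `k[t_1, .., t_m, t_(m+1)^p, ...]`: it is
spanned by the monomials in `B_(m+1), H_(m+1), B_(m+2), H_(m+2), ...`, and these do not vanish. -/

namespace Vale.Agent.P257.E

open MvPolynomial Finset Vale.Agent.P257.Q.PC Vale.Agent.P257.X Vale.Agent.P257.X.Cpx
  Vale.Agent.P257.SG

variable {p : ℕ} [Fact p.Prime]

/-- The monomial `B_(m+1)^j H_(m+1)^e B_(m+2)^j' H_(m+2)^e' ...` of a list `(j, e), (j', e'), ...` -/
noncomputable def mono (p : ℕ) : ℕ → List (ℕ × ℕ) → KP p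
  | _, [] => 1
  | m, x :: L => (bop p m)^[x.1] ((hop p m)^[x.2] (mono p (m + 1) L))

/-- The cohomological degree of a monomial. -/
def sd : List (ℕ × ℕ) → ℕ
  | [] => 0
  | x :: L => 2 * x.1 + x.2 + sd L

/-- The internal degree of a monomial. -/
def nd (p : ℕ) : ℕ → List (ℕ × ℕ) → ℕ
  | _, [] => 0
  | m, x :: L => (p * x.1 + x.2) * wt p m + nd p (m + 1) L

theorem hop_iter_Z {m n s : ℕ} {N : ℤ} {x : KP p} (hx : (AA p n).Z s N x) (e : ℕ) :
    (AA p n).Z (s + e) (N + e * wt p m) ((hop p m)^[e] x) := by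
  induction e with
  | zero => simpa using hx
  | succ e ih =>
    rw [Function.iterate_succ_apply']
    have := hop_Z (m := m) ih
    convert this using 1 <;> (push_cast; ring)

theorem bop_iter_Z {m n s : ℕ} {N : ℤ} {x : KP p} (hx : (AA p n).Z s N x) (j : ℕ) :
    (AA p n).Z (s + 2 * j) (N + j * (p * wt p m)) ((bop p m)^[j] x) := by
  induction j with
  | zero => simpa using hx
  | succ j ih =>
    rw [Function.iterate_succ_apply']
    have := bop_Z (m := m) ih
    convert this using 1 <;> (push_cast; ring)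

theorem one_Z (n : ℕ) : (AA p n).Z 0 0 (1 : KP p) := by
  refine ⟨mem_AA.2 ⟨mem_Co.2 ⟨isWeightedHomogeneous_one _ _, one_mem _⟩, fun k _ => ?_⟩, ?_⟩
  · exact Derivation.map_one_eq_zero _
  · rw [AA_d, dd_apply, Finset.sum_range_one, pow_zero, one_smul, zero_add, pow_one, neg_one_smul,
      map_one, add_neg_cancel]

/-- The monomials are cocycles. -/
theorem mono_Z (n : ℕ) (L : List (ℕ × ℕ)) : ∀ m, (AA p n).Z (sd L) (nd p m L : ℕ) (mono p m L) := by
  induction L with
  | nil => intro m; exact one_Z n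
  | cons x L ih =>
    intro m
    have := bop_iter_Z (m := m) (hop_iter_Z (m := m) (ih (m + 1)) x.2) x.1
    rw [mono, sd, nd]
    convert this using 1
    · ring
    · push_cast; ring

/-- The span of the monomials of length `r`. -/
noncomputable def VV (p r m s : ℕ) (N : ℤ) : Submodule (ZMod p) (KP p) :=
  Submodule.span (ZMod p) {f | ∃ L : List (ℕ × ℕ), L.length = r ∧ (∀ x ∈ L, x.2 ≤ 1) ∧ sd L = s ∧
    ((nd p m L : ℕ) : ℤ) = N ∧ mono p m L = f}

theorem smul_mem_K {n s : ℕ} {N : ℤ} {x : KP p} (c : ZMod p) (hx : x ∈ (AA p n).K s N) :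
    c • x ∈ (AA p n).K s N := by
  have : x ∈ A p n s N := hx
  exact Submodule.smul_mem _ c this

theorem smul_Z {n s : ℕ} {N : ℤ} {x : KP p} (c : ZMod p) (hx : (AA p n).Z s N x) :
    (AA p n).Z s N (c • x) := by
  refine ⟨smul_mem_K c hx.1, ?_⟩
  have h2 : dd p s x = 0 := hx.2
  rw [AA_d, map_smul, h2, smul_zero]

theorem smul_B {n s : ℕ} {N : ℤ} {x : KP p} (c : ZMod p) (hx : (AA p n).B s N x) :
    (AA p n).B s N (c • x) := by
  cases s with
  | zero =>
    have h0 : x = 0 := hx
    rw [h0, smul_zero]; exact B.zero _ _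
  | succ s =>
    obtain ⟨y, hy, rfl⟩ := hx
    exact ⟨c • y, smul_mem_K c hy, by rw [AA_d, map_smul, AA_d]⟩

theorem VV_Z {r m s : ℕ} (n : ℕ) {N : ℤ} {x : KP p} (hx : x ∈ VV p r m s N) :
    (AA p n).Z s N x := by
  induction hx using Submodule.span_induction with
  | mem x hx =>
    obtain ⟨L, -, -, rfl, rfl, rfl⟩ := hx
    exact mono_Z n L m
  | zero => exact Z.zero _ _
  | add x y _ _ hx hy => exact Z.add hx hy
  | smul c x _ hx => exact smul_Z c hx

theorem VV_map {r m s r' m' s' : ℕ} {N N' : ℤ} (F : KP p →ₗ[ZMod p] KP p)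
    (hF : ∀ L : List (ℕ × ℕ), L.length = r → (∀ x ∈ L, x.2 ≤ 1) → sd L = s →
      ((nd p m L : ℕ) : ℤ) = N → F (mono p m L) ∈ VV p r' m' s' N')
    {x : KP p} (hx : x ∈ VV p r m s N) : F x ∈ VV p r' m' s' N' := by
  induction hx using Submodule.span_induction with
  | mem x hx =>
    obtain ⟨L, h1, h2, h3, h4, rfl⟩ := hx
    exact hF L h1 h2 h3 h4
  | zero => rw [map_zero]; exact zero_mem _
  | add x y _ _ hx hy => rw [map_add]; exact add_mem hx hy
  | smul c x _ hx => rw [map_smul]; exact Submodule.smul_mem _ _ hx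

theorem VV_up {r m s : ℕ} {N : ℤ} {x : KP p} (hx : x ∈ VV p r (m + 1) s N) :
    x ∈ VV p (r + 1) m s N := by
  refine VV_map LinearMap.id (fun L h1 h2 h3 h4 => ?_) hx
  refine Submodule.subset_span ⟨(0, 0) :: L, ?_, ?_, ?_, ?_, ?_⟩
  · rw [List.length_cons, h1]
  · intro x hx
    rw [List.mem_cons] at hx
    rcases hx with rfl | hx
    · exact Nat.zero_le _
    · exact h2 x hx
  · rw [sd, h3]; ring
  · rw [nd, ← h4]; push_cast; ring
  · rfl

theorem VV_hop {r m s : ℕ} {N : ℤ} {x : KP p} (hx : x ∈ VV p r (m + 1) s N) :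
    hop p m x ∈ VV p (r + 1) m (s + 1) (N + wt p m) := by
  refine VV_map (hop p m) (fun L h1 h2 h3 h4 => ?_) hx
  refine Submodule.subset_span ⟨(0, 1) :: L, ?_, ?_, ?_, ?_, ?_⟩
  · rw [List.length_cons, h1]
  · intro x hx
    rw [List.mem_cons] at hx
    rcases hx with rfl | hx
    · exact le_rfl
    · exact h2 x hx
  · rw [sd, h3]; ring
  · rw [nd, ← h4]; push_cast; ring
  · rfl

theorem VV_bop {r m s : ℕ} {N : ℤ} {x : KP p} (hx : x ∈ VV p (r + 1) m s N) :
    bop p m x ∈ VV p (r + 1) m (s + 2) (N + p * wt p m) := by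
  refine VV_map (bop p m) (fun L h1 h2 h3 h4 => ?_) hx
  obtain ⟨y, L, rfl⟩ : ∃ y L', L = y :: L' := by
    cases L with
    | nil => simp at h1
    | cons y L => exact ⟨y, L, rfl⟩
  refine Submodule.subset_span ⟨(y.1 + 1, y.2) :: L, ?_, ?_, ?_, ?_, ?_⟩
  · rw [List.length_cons] at h1 ⊢; exact h1
  · intro x hx
    rw [List.mem_cons] at hx
    rcases hx with rfl | hx
    · exact h2 y (List.mem_cons_self)
    · exact h2 x (List.mem_cons_of_mem _ hx)
  · rw [sd] at h3 ⊢; rw [← h3]; ring
  · rw [nd] at h4 ⊢; rw [← h4]; push_cast; ring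
  · rw [mono, mono, Function.iterate_succ_apply']

theorem wt_mono {m n : ℕ} (h : m ≤ n) : wt p m ≤ wt p n := by
  rw [wt, wt]
  exact Finset.sum_le_sum_of_subset (by
    intro x hx
    rw [mem_range] at hx ⊢
    omega)

/-- The cohomology is spanned by the monomials. -/
theorem FP_span (r : ℕ) : ∀ (m s : ℕ) (N : ℤ) (z : KP p), N < wt p (m + r) → (AA p m).Z s N z →
    ∃ x ∈ VV p r m s N, (AA p m).B s N (z - x) := by
  induction r with
  | zero =>
    intro m s N z hN hz
    rw [add_zero] at hN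
    cases s with
    | zero =>
      obtain ⟨c, rfl, hc⟩ := top_zero hz
      by_cases h0 : N = 0
      · subst h0
        refine ⟨c • 1, Submodule.smul_mem _ _ (Submodule.subset_span
          ⟨[], rfl, by simp, rfl, rfl, rfl⟩), ?_⟩
        rw [sub_self]; exact B.zero _ _
      · rw [hc h0, zero_smul]
        exact ⟨0, zero_mem _, by rw [sub_self]; exact B.zero _ _⟩
    | succ s =>
      refine ⟨0, zero_mem _, ?_⟩
      rw [sub_zero]
      exact top_ex hN hz
  | succ r ih =>
    intro m
    have hP : Rep (der (p := p) m) (fun s N x => x ∈ VV p r (m + 1) s N) (wt p (m + 1 + r)) := by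
      intro s N z hN hz
      obtain ⟨x, hx, hb⟩ := ih (m + 1) s N z hN hz
      exact ⟨x, hx, Z_ker_AA.2 (VV_Z m hx), hb⟩
    have he : (0 : ℤ) ≤ wt p m := by positivity
    have hp2 := (Fact.out : p.Prime).two_le
    intro s
    induction s using Nat.strong_induction_on with
    | _ s ihs =>
      intro N z hN hz
      rw [show m + (r + 1) = m + 1 + r by ring] at hN
      have hz' := Z_ker_AA.2 hz
      match s, ihs, hz' with
      | 0, _, hz' =>
        obtain ⟨x, h1, -, h3⟩ := Col.span_zero hP hN hz'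
        exact ⟨x, VV_up h1, B_ker_AA.1 h3⟩
      | 1, _, hz' =>
        obtain ⟨x₀, x₁, h1, -, h3, -, h5⟩ := (col m).span_one he hP hN hz'
        refine ⟨x₀ + hop p m x₁, add_mem (VV_up h1) ?_, ?_⟩
        · have := VV_hop h3
          rwa [sub_add_cancel] at this
        · rw [← sub_sub]
          exact B_ker_AA.1 h5
      | s + 2, ihs, hz' =>
        obtain ⟨x₀, x₁, R, h1, -, h3, -, hR, h5⟩ := (col m).span he (by omega) hP hN hz'
        have hN' : N - p * wt p m < wt p (m + (r + 1)) := by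
          have : (0 : ℤ) ≤ p * wt p m := by positivity
          rw [show m + (r + 1) = m + 1 + r by ring]
          linarith
        obtain ⟨R', hR1, hR2⟩ := ihs s (by omega) _ R hN' (Z_ker_AA.1 hR)
        refine ⟨x₀ + hop p m x₁ + bop p m R', add_mem (add_mem (VV_up h1) ?_) ?_, ?_⟩
        · have := VV_hop h3
          rwa [sub_add_cancel] at this
        · have := VV_bop hR1
          rwa [sub_add_cancel] at this
        · have h6 := bop_B (m := m) hR2
          rw [sub_add_cancel] at h6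
          have h7 : z - (x₀ + hop p m x₁ + bop p m R') =
              (z - x₀ - hop p m x₁ - bop p m R) + bop p m (R - R') := by
            rw [map_sub]; abel
          rw [h7]
          exact B.add (B_ker_AA.1 h5) h6

/-- All the classes are represented by cocycles with coefficients in `k[t_1^p, ...]`. -/
theorem rep (m : ℕ) (M : ℤ) : Rep (der (p := p) m) (fun _ _ _ => True) M := by
  intro s N z _ hz
  obtain ⟨r, hr⟩ : ∃ r : ℕ, N < wt p (m + 1 + r) := by
    obtain ⟨k, hk⟩ := Int.eq_ofNat_of_zero_le (le_max_right N 0)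
    refine ⟨k, lt_of_le_of_lt (le_max_left N 0) ?_⟩
    rw [hk]
    have h1 : k < p ^ k := Nat.lt_pow_self (Fact.out : p.Prime).one_lt
    have h2 : p ^ k ≤ wt p k := wt_ge k
    have h3 : wt p k ≤ wt p (m + 1 + k) := wt_mono (by omega)
    exact_mod_cast h1.trans_le (h2.trans h3)
  obtain ⟨x, hx, hb⟩ := FP_span r (m + 1) s N z hr hz
  exact ⟨x, trivial, Z_ker_AA.2 (VV_Z m hx), hb⟩

/-- `H_(m+1)` can be stripped. -/
theorem strip_hop {m s : ℕ} {N : ℤ} {x : KP p} (hx : (AA p m).Z s N x)
    (hb : (AA p m).B (s + 1) (N + wt p m) (hop p m x)) : (AA p (m + 1)).B s N x := by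
  have h := (col m).strip_hop (rep (p := p) m (N + wt p m + 1)) (s := s) (N := N + wt p m)
    (by linarith) (S := x) (by rw [add_sub_cancel_right]; exact Z_ker_AA.2 hx) (B_ker_AA.2 hb)
  rwa [add_sub_cancel_right] at h

/-- `B_(m+1)` can be stripped. -/
theorem strip_bop {m s : ℕ} {N : ℤ} {x : KP p} (hx : (AA p m).Z s N x)
    (hb : (AA p m).B (s + 2) (N + p * wt p m) (bop p m x)) : (AA p m).B s N x := by
  have h := (col m).strip_bop (by positivity) (Fact.out : p.Prime).two_le
    (rep (p := p) m (N + p * wt p m + 1)) (s := s) (N := N + p * wt p m)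
    (by linarith) (R := x) (by rw [add_sub_cancel_right]; exact Z_ker_AA.2 hx) (B_ker_AA.2 hb)
  rw [add_sub_cancel_right] at h
  exact B_ker_AA.1 h

theorem iter_smul (F : KP p →ₗ[ZMod p] KP p) (k : ℕ) (c : ZMod p) (x : KP p) :
    c • F^[k] x = F^[k] (c • x) := by
  induction k with
  | zero => rfl
  | succ k ih => rw [Function.iterate_succ_apply', Function.iterate_succ_apply', ← ih, map_smul]

theorem strip_bop_iter {m s : ℕ} {N : ℤ} {x : KP p} (hx : (AA p m).Z s N x) (j : ℕ)
    (hb : (AA p m).B (s + 2 * j) (N + j * (p * wt p m)) ((bop p m)^[j] x)) :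
    (AA p m).B s N x := by
  induction j with
  | zero => simpa using hb
  | succ j ih =>
    refine ih ?_
    refine strip_bop (bop_iter_Z hx j) ?_
    rw [Function.iterate_succ_apply'] at hb
    convert hb using 1 <;> (push_cast; ring)

/-- The monomials do not vanish. -/
theorem mono_ne (L : List (ℕ × ℕ)) : ∀ (m : ℕ) (c : ZMod p), (∀ x ∈ L, x.2 ≤ 1) →
    (AA p m).B (sd L) (nd p m L : ℕ) (c • mono p m L) → c = 0 := by
  induction L with
  | nil =>
    intro m c _ hb
    have h : c • (1 : KP p) = 0 := hb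
    rw [smul_eq_C_mul, mul_one] at h
    exact C_injective _ _ (h.trans C_0.symm)
  | cons x L ih =>
    intro m c hL hb
    have hz := mono_Z (p := p) m L (m + 1)
    have hz1 := smul_Z c hz
    have e1 : c • mono p m (x :: L) = (bop p m)^[x.1] ((hop p m)^[x.2] (c • mono p (m + 1) L)) := by
      rw [mono, ← iter_smul, ← iter_smul]
    rw [e1, sd, nd] at hb
    have hb1 : (AA p m).B (sd L + x.2) (nd p (m + 1) L + x.2 * wt p m)
        ((hop p m)^[x.2] (c • mono p (m + 1) L)) := by
      refine strip_bop_iter (hop_iter_Z hz1 x.2) x.1 ?_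
      convert hb using 1
      · ring
      · push_cast; ring
    refine ih (m + 1) c (fun y hy => hL y (List.mem_cons_of_mem _ hy)) ?_
    have hx2 := hL x List.mem_cons_self
    interval_cases x.2
    · simp only [Function.iterate_zero, id, add_zero, Nat.cast_zero, zero_mul] at hb1
      exact B_le (Nat.le_succ m) hb1
    · simp only [Function.iterate_one, Nat.cast_one, one_mul] at hb1
      exact strip_hop hz1 hb1

end Vale.Agent.P257.E
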